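import Vale.Agent.P165.LargeDegree.Defs

/-!
P165: edge expansion bounds the adjacency operator, hence the number of walks.
-/

open Finset

namespace Vale.Agent.P165.LargeDegree

variable {V : Type*} [DecidableEq V] {G : SimpleGraph V} [G.LocallyFinite]

/-- All neighbours of a finite set. -/
def nb (G : SimpleGraph V) [G.LocallyFinite] (A : Finset V) : Finset V :=
  A.biUnion fun x => G.neighborFinset x

/-- The adjacency operator. -/
noncomputable def adj (G : SimpleGraph V) [G.LocallyFinite] (f : V → ℝ) (y : V) : ℝ :=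
  ∑ x ∈ G.neighborFinset y, f x

/-- The adjacency operator has norm at most `a`. -/
def NormLe (G : SimpleGraph V) [G.LocallyFinite] (a : ℝ) : Prop :=
  ∀ (S : Finset V) (f : V → ℝ), (∀ x, x ∉ S → f x = 0) →
    ∀ T : Finset V, ∑ y ∈ T, adj G f y ^ 2 ≤ a ^ 2 * ∑ x ∈ S, f x ^ 2

theorem ncard_boundary (A : Finset V) :
    Set.ncard {e : V × V | e.1 ∈ A ∧ e.2 ∉ A ∧ G.Adj e.1 e.2} =
      ∑ x ∈ A, (G.neighborFinset x \ A).card := by
  have h : {e : V × V | e.1 ∈ A ∧ e.2 ∉ A ∧ G.Adj e.1 e.2} =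
      ↑(A.biUnion fun x => (G.neighborFinset x \ A).image fun y => (x, y)) := by
    ext ⟨u, w⟩
    simp only [Set.mem_setOf_eq, coe_biUnion, coe_image, Set.mem_iUnion, Set.mem_image,
      mem_coe, mem_sdiff, SimpleGraph.mem_neighborFinset, Prod.mk.injEq, exists_prop]
    constructor
    · rintro ⟨h1, h2, h3⟩
      exact ⟨u, h1, w, ⟨h3, h2⟩, rfl, rfl⟩
    · rintro ⟨x, hx, y, ⟨h3, h2⟩, rfl, rfl⟩
      exact ⟨hx, h2, h3⟩
  rw [h, Set.ncard_coe_finset, card_biUnion]
  · exact sum_congr rfl fun x _ => card_image_of_injective _ (Prod.mk_right_injective x)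
  · intro x _ y _ hxy
    simp only [Function.onFun, disjoint_left, mem_image]
    rintro ⟨a, b⟩ ⟨c, _, h1⟩ ⟨e, _, h2⟩
    simp only [Prod.mk.injEq] at h1 h2
    exact hxy (h1.1.trans h2.1.symm)

/-- Total increase of a function along the edges leaving each point. -/
noncomputable def drop (G : SimpleGraph V) [G.LocallyFinite] (S : Finset V) (g : V → ℝ) : ℝ :=
  ∑ x ∈ S, ∑ y ∈ G.neighborFinset x, max (g x - g y) 0

theorem coarea {h : ℝ} (hG : HasEdgeExpansion G h) :
    ∀ (S : Finset V) (g : V → ℝ), (∀ x ∈ S, 0 < g x) → (∀ x, x ∉ S → g x = 0) →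
      h * ∑ x ∈ S, g x ≤ drop G S g := by
  intro S
  induction S using Finset.strongInduction with
  | _ S ih =>
    intro g hpos hout
    rcases S.eq_empty_or_nonempty with rfl | hne
    · simp [drop]
    obtain ⟨x0, hx0, hmin⟩ := exists_min_image S g hne
    set m := g x0
    have hm : 0 < m := hpos x0 hx0
    set g' : V → ℝ := fun x => if x ∈ S then g x - m else 0 with hg'
    set S' := S.filter fun x => g' x ≠ 0
    have hS' : S' ⊂ S := filter_ssubset.2 ⟨x0, hx0, by simp [g', hx0, m]⟩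
    have hg'nn : ∀ x, 0 ≤ g' x := fun x => by
      by_cases hx : x ∈ S
      · simp only [g', if_pos hx]; linarith [hmin x hx]
      · simp [g', hx]
    have hout' : ∀ x, x ∉ S' → g' x = 0 := fun x hx => by
      by_contra hne'
      by_cases hxS : x ∈ S
      · exact hx (mem_filter.2 ⟨hxS, hne'⟩)
      · exact hne' (by simp [g', hxS])
    have hrec := ih S' hS' g' (fun x hx => lt_of_le_of_ne (hg'nn x) (mem_filter.1 hx).2.symm) hout'
    have hb := hG S
    rw [ncard_boundary, Nat.cast_sum] at hb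
    have hdrop : drop G S g = drop G S g' + m * ∑ x ∈ S, ((G.neighborFinset x \ S).card : ℝ) := by
      rw [drop, drop, mul_sum, ← sum_add_distrib]
      refine sum_congr rfl fun x hx => ?_
      rw [← sum_inter_add_sum_sdiff (G.neighborFinset x) S (fun y => max (g x - g y) 0),
        ← sum_inter_add_sum_sdiff (G.neighborFinset x) S (fun y => max (g' x - g' y) 0), add_assoc]
      congr 1
      · refine sum_congr rfl fun y hy => ?_
        simp [g', hx, (mem_inter.1 hy).2]
      · have e1 : ∀ y ∈ G.neighborFinset x \ S, max (g x - g y) 0 = max (g' x - g' y) 0 + m := by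
          intro y hy
          have hyS := (mem_sdiff.1 hy).2
          rw [hout y hyS, sub_zero, max_eq_left (hpos x hx).le]
          simp only [g', if_pos hx, if_neg hyS, sub_zero]
          rw [max_eq_left (by linarith [hmin x hx])]
          ring
        rw [sum_congr rfl e1, sum_add_distrib, sum_const, nsmul_eq_mul]
        ring
    have hsum : ∑ x ∈ S, g x = ∑ x ∈ S', g' x + m * S.card := by
      rw [sum_subset (filter_subset _ S) fun x _ hx => hout' x hx]
      have : ∑ x ∈ S, g' x = ∑ x ∈ S, (g x - m) := sum_congr rfl fun x hx => by simp [g', hx]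
      rw [this, sum_sub_distrib, sum_const, nsmul_eq_mul]
      ring
    have hdrop' : drop G S g' = drop G S' g' := by
      refine (sum_subset (filter_subset _ S) fun x _ hx => ?_).symm
      refine sum_eq_zero fun y _ => ?_
      rw [hout' x hx]
      exact max_eq_right (by linarith [hg'nn y])
    rw [hsum, hdrop, hdrop', mul_add]
    have := mul_le_mul_of_nonneg_left hb hm.le
    linarith

variable {D : ℕ} (hreg : ∀ x, G.degree x = D)
include hreg

theorem sum_neighbors_comm (W : Finset V) (F : V → V → ℝ) :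
    ∑ x ∈ W, ∑ y ∈ G.neighborFinset x ∩ W, F x y = ∑ x ∈ W, ∑ y ∈ G.neighborFinset x ∩ W, F y x :=
  sum_comm' fun x y => by
    simp only [mem_inter, SimpleGraph.mem_neighborFinset]
    exact ⟨fun h => ⟨⟨h.2.1.symm, h.1⟩, h.2.2⟩, fun h => ⟨h.1.2, h.1.1.symm, h.2⟩⟩

theorem abs_quad_le {h : ℝ} (hG : HasEdgeExpansion G h) (hh : 0 ≤ h) (S : Finset V) (f : V → ℝ)
    (hout : ∀ x, x ∉ S → f x = 0) :
    (∑ x ∈ S, f x * adj G f x) ^ 2 ≤ ((D : ℝ) ^ 2 - h ^ 2) * (∑ x ∈ S, f x ^ 2) ^ 2 := by
  set W := S ∪ nb G S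
  set F := ∑ x ∈ S, f x ^ 2 with hF
  set q := ∑ x ∈ S, f x * adj G f x with hq
  set S0 := S.filter fun x => f x ≠ 0
  have hF0 : F = ∑ x ∈ S0, f x ^ 2 :=
    (sum_subset (filter_subset _ S) fun x hx hx' => by
      have : f x = 0 := by by_contra hne; exact hx' (mem_filter.2 ⟨hx, hne⟩)
      simp [this]).symm
  have hco := coarea hG S0 (fun x => f x ^ 2)
    (fun x hx => by have := (mem_filter.1 hx).2; positivity)
    fun x hx => by
      by_cases hxS : x ∈ S
      · have : f x = 0 := by by_contra hne; exact hx (mem_filter.2 ⟨hxS, hne⟩)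
        simp [this]
      · simp [hout x hxS]
  rw [← hF0] at hco
  have hW : ∀ x ∈ S, ∀ y ∈ G.neighborFinset x, y ∈ W := fun x hx y hy =>
    mem_union_right _ (mem_biUnion.2 ⟨x, hx, hy⟩)
  set T1 := ∑ x ∈ W, ∑ y ∈ G.neighborFinset x ∩ W, |f x ^ 2 - f y ^ 2| with hT1
  have hdrop : 2 * drop G S0 (fun x => f x ^ 2) ≤ T1 := by
    have h1 : drop G S0 (fun x => f x ^ 2) ≤
        ∑ x ∈ W, ∑ y ∈ G.neighborFinset x ∩ W, max (f x ^ 2 - f y ^ 2) 0 := by
      refine le_trans (le_of_eq (sum_congr rfl fun x hx => ?_))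
        (sum_le_sum_of_subset_of_nonneg ((filter_subset _ S).trans subset_union_left)
          fun x _ _ => sum_nonneg fun y _ => le_max_right _ _)
      rw [inter_eq_left.2 fun y hy => hW x (mem_filter.1 hx).1 y hy]
    have h2 := sum_neighbors_comm hreg W fun x y => max (f x ^ 2 - f y ^ 2) 0
    have h3 : T1 = ∑ x ∈ W, ∑ y ∈ G.neighborFinset x ∩ W, max (f x ^ 2 - f y ^ 2) 0 +
        ∑ x ∈ W, ∑ y ∈ G.neighborFinset x ∩ W, max (f y ^ 2 - f x ^ 2) 0 := by
      rw [hT1, ← sum_add_distrib]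
      refine sum_congr rfl fun x _ => ?_
      rw [← sum_add_distrib]
      refine sum_congr rfl fun y _ => ?_
      rcases le_total (f x ^ 2) (f y ^ 2) with hle | hle
      · rw [abs_of_nonpos (by linarith), max_eq_right (by linarith), max_eq_left (by linarith)]
        ring
      · rw [abs_of_nonneg (by linarith), max_eq_left (by linarith), max_eq_right (by linarith)]
        ring
    linarith
  have sq_pair : ∀ s : ℝ, ∑ x ∈ W, ∑ y ∈ G.neighborFinset x ∩ W, (f x + s * f y) ^ 2 ≤
      (D + s ^ 2 * D) * F + 2 * s * q := by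
    intro s
    have e1 : ∑ x ∈ W, ∑ y ∈ G.neighborFinset x ∩ W, f x ^ 2 = D * F := by
      rw [hF, mul_sum]
      refine (sum_subset subset_union_left fun x _ hx => ?_).symm.trans (sum_congr rfl fun x hx => ?_)
      · exact sum_eq_zero fun y _ => by rw [hout x hx]; ring
      · rw [inter_eq_left.2 fun y hy => hW x hx y hy, sum_const, nsmul_eq_mul,
          G.card_neighborFinset_eq_degree, hreg]
    have e2 : ∑ x ∈ W, ∑ y ∈ G.neighborFinset x ∩ W, f y ^ 2 = D * F :=
      (sum_neighbors_comm hreg W fun _ y => f y ^ 2).trans e1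
    have e3 : ∑ x ∈ W, ∑ y ∈ G.neighborFinset x ∩ W, f x * f y = q := by
      rw [hq]
      refine (sum_subset subset_union_left fun x _ hx => ?_).symm.trans (sum_congr rfl fun x hx => ?_)
      · exact sum_eq_zero fun y _ => by rw [hout x hx]; ring
      · rw [inter_eq_left.2 fun y hy => hW x hx y hy, adj, mul_sum]
    refine le_of_eq ?_
    calc ∑ x ∈ W, ∑ y ∈ G.neighborFinset x ∩ W, (f x + s * f y) ^ 2
        = ∑ x ∈ W, ∑ y ∈ G.neighborFinset x ∩ W,
            (f x ^ 2 + 2 * s * (f x * f y) + s ^ 2 * f y ^ 2) :=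
          sum_congr rfl fun x _ => sum_congr rfl fun y _ => by ring
      _ = _ := by
        have e2' : ∑ x ∈ W, ∑ y ∈ G.neighborFinset x ∩ W, s ^ 2 * f y ^ 2 = s ^ 2 * (D * F) := by
          rw [← e2, mul_sum]; exact sum_congr rfl fun x _ => (mul_sum _ _ _).symm
        have e3' : ∑ x ∈ W, ∑ y ∈ G.neighborFinset x ∩ W, 2 * s * (f x * f y) = 2 * s * q := by
          rw [← e3, mul_sum]; exact sum_congr rfl fun x _ => (mul_sum _ _ _).symm
        simp only [sum_add_distrib, e1, e2', e3']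
        ring
  have hcs : T1 ^ 2 ≤ (∑ x ∈ W, ∑ y ∈ G.neighborFinset x ∩ W, (f x + (-1) * f y) ^ 2) *
      ∑ x ∈ W, ∑ y ∈ G.neighborFinset x ∩ W, (f x + 1 * f y) ^ 2 := by
    have hc := sum_mul_sq_le_sq_mul_sq (W.sigma fun x => G.neighborFinset x ∩ W)
      (fun p : (_ : V) × V => |f p.1 + (-1) * f p.2|) fun p : (_ : V) × V => |f p.1 + 1 * f p.2|
    simp only [sum_sigma, sq_abs] at hc
    refine le_of_eq_of_le ?_ hc
    rw [hT1]
    congr 1
    exact sum_congr rfl fun x _ => sum_congr rfl fun y _ => by rw [← abs_mul]; congr 1; ring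
  have hT0 : 0 ≤ T1 := sum_nonneg fun _ _ => sum_nonneg fun _ _ => abs_nonneg _
  have h2 : 2 * h * F ≤ T1 := by linarith
  have hF' : 0 ≤ F := sum_nonneg fun _ _ => sq_nonneg _
  have hk := (pow_le_pow_left₀ (by positivity) h2 2).trans (hcs.trans
    (mul_le_mul (sq_pair (-1)) (sq_pair 1) (sum_nonneg fun _ _ => sum_nonneg fun _ _ => sq_nonneg _)
      ((sum_nonneg fun _ _ => sum_nonneg fun _ _ => sq_nonneg _).trans (sq_pair (-1)))))
  nlinarith [hk]

theorem normLe_of_expansion {h a : ℝ} (hG : HasEdgeExpansion G h) (hh : 0 ≤ h) (ha : 0 < a)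
    (hah : (D : ℝ) ^ 2 - h ^ 2 ≤ a ^ 2) : NormLe G a := by
  intro S f hout T
  set W := S ∪ T
  have q : ∀ k : V → ℝ, (∀ x, x ∉ W → k x = 0) →
      |∑ x ∈ W, k x * adj G k x| ≤ a * ∑ x ∈ W, k x ^ 2 := fun k hk => by
    refine abs_le_of_sq_le_sq ((abs_quad_le hreg hG hh W k hk).trans ?_) (by positivity)
    rw [mul_pow]
    exact mul_le_mul_of_nonneg_right hah (sq_nonneg _)
  set g : V → ℝ := fun y => if y ∈ T then adj G f y / a else 0 with hg
  have hg0 : ∀ x, x ∉ W → g x = 0 := fun x hx => if_neg fun h => hx (mem_union_right _ h)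
  have hf0 : ∀ x, x ∉ W → f x = 0 := fun x hx => hout x fun h => hx (mem_union_left _ h)
  have qp := q (fun x => f x + g x) fun x hx => by rw [hf0 x hx, hg0 x hx, add_zero]
  have qm := q (fun x => f x - g x) fun x hx => by rw [hf0 x hx, hg0 x hx, sub_zero]
  have hsymm : ∑ x ∈ W, f x * adj G g x = ∑ x ∈ W, g x * adj G f x := by
    simp only [adj, mul_sum]
    have r : ∀ (u w : V → ℝ), (∀ x, x ∉ W → w x = 0) →
        ∑ x ∈ W, ∑ y ∈ G.neighborFinset x, u x * w y =
          ∑ x ∈ W, ∑ y ∈ G.neighborFinset x ∩ W, u x * w y := fun u w hw =>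
      sum_congr rfl fun x _ => (sum_subset inter_subset_left fun y hy hy' => by
        rw [hw y fun h => hy' (mem_inter.2 ⟨hy, h⟩), mul_zero]).symm
    rw [r f g hg0, r g f hf0, sum_neighbors_comm hreg W fun x y => f x * g y]
    exact sum_congr rfl fun x _ => sum_congr rfl fun y _ => mul_comm _ _
  set F := ∑ x ∈ W, f x ^ 2
  set Y := ∑ y ∈ T, adj G f y ^ 2
  have hY : ∑ x ∈ W, g x * adj G f x = Y / a := by
    rw [← sum_subset (subset_union_right : T ⊆ W) fun x _ hx => by simp [hg, hx], sum_div]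
    exact sum_congr rfl fun x hx => by simp only [hg, if_pos hx]; ring
  have hG2 : ∑ x ∈ W, g x ^ 2 = Y / a ^ 2 := by
    rw [← sum_subset (subset_union_right : T ⊆ W) fun x _ hx => by simp [hg, hx], sum_div]
    exact sum_congr rfl fun x hx => by simp only [hg, if_pos hx]; ring
  have hFS : ∑ x ∈ S, f x ^ 2 = F :=
    sum_subset subset_union_left fun x _ hx => by rw [hout x hx]; ring
  have eadd : ∀ u w : V → ℝ, ∀ x, adj G (fun y => u y + w y) x = adj G u x + adj G w x :=
    fun u w x => sum_add_distrib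
  have esub : ∀ u w : V → ℝ, ∀ x, adj G (fun y => u y - w y) x = adj G u x - adj G w x :=
    fun u w x => sum_sub_distrib _ _
  simp only [eadd, esub, add_sq, sub_sq, add_mul, sub_mul, mul_add, mul_sub, sum_add_distrib,
    sum_sub_distrib, mul_assoc, ← mul_sum, hY, hG2, hsymm] at qp qm
  have h1 := (le_abs_self _).trans qp
  have h2 := (neg_le_abs _).trans qm
  rw [hFS]
  have h3 : 4 * (Y / a) ≤ 2 * a * F + 2 * a * (Y / a ^ 2) := by linarith
  have h4 : a * (Y / a ^ 2) = Y / a := by field_simp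
  have h5 : Y / a ≤ a * F := by linarith
  rw [div_le_iff₀ ha] at h5
  linarith

omit hreg

/-- Number of walks, computed by the neighbour recursion. -/
noncomputable def walks (G : SimpleGraph V) [G.LocallyFinite] : ℕ → V → V → ℝ
  | 0 => fun x y => if x = y then 1 else 0
  | n + 1 => fun x y => adj G (fun z => walks G n z y) x

theorem card_finsetWalkLength_le (n : ℕ) : ∀ x y : V,
    ((G.finsetWalkLength n x y).card : ℝ) ≤ walks G n x y := by
  induction n with
  | zero =>
    intro x y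
    by_cases h : x = y
    · subst h; simp [SimpleGraph.finsetWalkLength, walks]
    · simp [SimpleGraph.finsetWalkLength, walks, h]
  | succ n ih =>
    intro x y
    simp only [SimpleGraph.finsetWalkLength, walks, adj]
    refine (Nat.cast_le.2 card_biUnion_le).trans ?_
    rw [Nat.cast_sum]
    simp only [card_map]
    rw [SimpleGraph.neighborFinset_def]
    refine le_of_le_of_eq (sum_le_sum fun w _ => ih w y) ?_
    exact Finset.sum_set_coe (G.neighborSet x) (f := fun z => walks G n z y)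

theorem walks_le {a : ℝ} (ha : 0 ≤ a) (hn : NormLe G a) (y : V) (n : ℕ) :
    ∀ x, |walks G n x y| ≤ a ^ n := by
  have key : ∀ n, ∃ S : Finset V, (∀ x, x ∉ S → walks G n x y = 0) ∧
      ∀ T : Finset V, ∑ x ∈ T, walks G n x y ^ 2 ≤ (a ^ n) ^ 2 := fun n => by
    induction n with
    | zero =>
      refine ⟨{y}, fun x hx => if_neg fun h => hx (mem_singleton.2 h), fun T => ?_⟩
      simp only [walks, ite_pow, one_pow, zero_pow two_ne_zero, sum_ite_eq', pow_zero]
      split_ifs <;> norm_num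
    | succ n ih =>
      obtain ⟨S, hS, hT⟩ := ih
      refine ⟨nb G S, fun x hx => sum_eq_zero fun z hz => hS z fun hzS => hx ?_, fun T => ?_⟩
      · rw [SimpleGraph.mem_neighborFinset] at hz
        exact mem_biUnion.2 ⟨z, hzS, (SimpleGraph.mem_neighborFinset _ _ _).2 hz.symm⟩
      · refine (hn S _ hS T).trans ?_
        rw [show (a ^ (n + 1)) ^ 2 = a ^ 2 * (a ^ n) ^ 2 by ring]
        exact mul_le_mul_of_nonneg_left (hT S) (sq_nonneg a)
  intro x
  obtain ⟨S, -, hT⟩ := key n
  have := hT {x}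
  rw [sum_singleton] at this
  exact abs_le_of_sq_le_sq this (pow_nonneg ha n)

end Vale.Agent.P165.LargeDegree
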