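import Vale.Agent.P165.LargeDegree.Defs
import Vale.Agent.P165.LargeDegree.Spectral

/-!
P165: the percolation law on open or closed bits, independence on disjoint edge sets, and the
bound on connection probabilities by walks.
-/

open MeasureTheory ProbabilityTheory Finset

namespace Vale.Agent.P165.LargeDegree

variable {V : Type*}

/-- The open graph of a bit configuration. -/
def bitGraph (G : SimpleGraph V) (b : Sym2 V → Bool) : SimpleGraph V where
  Adj x y := G.Adj x y ∧ b s(x, y) = true
  symm := ⟨fun x y h => ⟨h.1.symm, by rw [Sym2.eq_swap]; exact h.2⟩⟩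
  loopless := ⟨fun x h => h.1.ne rfl⟩

/-- Bits of the labels at parameter `p`. -/
noncomputable def bits (p : ℝ) (η : Sym2 V → ℝ) : Sym2 V → Bool := fun e => decide (η e < p)

/-- The law of one bit. -/
noncomputable def bern (p : ℝ) : Measure Bool := unif.map fun u => decide (u < p)

/-- The law of the bits. -/
noncomputable def bitLaw (V : Type*) (p : ℝ) : Measure (Sym2 V → Bool) :=
  (labelLaw V).map (bits p)

theorem openGraph_eq (G : SimpleGraph V) (p : ℝ) (η : Sym2 V → ℝ) :
    openGraph G p η = bitGraph G (bits p η) := by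
  ext x y; simp [openGraph, bitGraph, bits]

theorem bitGraph_le (G : SimpleGraph V) (b : Sym2 V → Bool) : bitGraph G b ≤ G := fun _ _ h => h.1

instance : IsProbabilityMeasure unif := ⟨by simp [unif]⟩

theorem measurable_thr (p : ℝ) : Measurable fun u : ℝ => decide (u < p) := by
  refine measurable_to_bool ?_
  convert measurableSet_Iio (a := p) using 1
  ext u; simp

instance (p : ℝ) : IsProbabilityMeasure (bern p) :=
  Measure.isProbabilityMeasure_map (measurable_thr p).aemeasurable

instance : IsProbabilityMeasure (labelLaw V) := by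
  unfold labelLaw; infer_instance

theorem measurable_bits (p : ℝ) : Measurable (bits (V := V) p) :=
  measurable_pi_lambda _ fun e => (measurable_thr p).comp (measurable_pi_apply e)

theorem bitLaw_eq (p : ℝ) : bitLaw V p = Measure.infinitePi fun _ : Sym2 V => bern p := by
  rw [bitLaw, labelLaw]
  exact Measure.infinitePi_map_pi (fun _ => unif) fun _ => measurable_thr p

instance (p : ℝ) : IsProbabilityMeasure (bitLaw V p) := by rw [bitLaw_eq]; infer_instance

theorem bern_true {p : ℝ} (h0 : 0 ≤ p) (h1 : p ≤ 1) : (bern p).real {true} = p := by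
  rw [bern, measureReal_def, Measure.map_apply (measurable_thr p) (measurableSet_singleton _)]
  have : (fun u : ℝ => decide (u < p)) ⁻¹' {true} = Set.Iio p := by ext u; simp
  rw [this, unif, Measure.restrict_apply measurableSet_Iio]
  have : Set.Iio p ∩ Set.Ico 0 1 = Set.Ico 0 p := by
    ext u
    simp only [Set.mem_inter_iff, Set.mem_Iio, Set.mem_Ico]
    exact ⟨fun h => ⟨h.2.1, h.1⟩, fun h => ⟨h.2, h.1, h.2.trans_le h1⟩⟩
  rw [this, Real.volume_Ico, sub_zero, ENNReal.toReal_ofReal h0]

theorem bern_false {p : ℝ} (h0 : 0 ≤ p) (h1 : p ≤ 1) : (bern p).real {false} = 1 - p := by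
  have h : ({false} : Set Bool) = {true}ᶜ := by ext b; cases b <;> simp
  rw [h, measureReal_compl (measurableSet_singleton _), bern_true h0 h1, probReal_univ]

/-- An event that only looks at the bits in `s`. -/
def DependsOnBits (s : Finset (Sym2 V)) (X : Set (Sym2 V → Bool)) : Prop :=
  ∀ b b' : Sym2 V → Bool, (∀ e ∈ s, b e = b' e) → b ∈ X → b' ∈ X

theorem DependsOnBits.mono {s t : Finset (Sym2 V)} (h : s ⊆ t) {X : Set (Sym2 V → Bool)}
    (hX : DependsOnBits s X) : DependsOnBits t X := fun b b' hb =>
  hX b b' fun e he => hb e (h he)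

theorem DependsOnBits.eq_preimage {s : Finset (Sym2 V)} {X : Set (Sym2 V → Bool)}
    (h : DependsOnBits s X) :
    X = (fun b (e : s) => b e) ⁻¹' ((fun b (e : s) => b e) '' X) := by
  refine Set.Subset.antisymm (Set.subset_preimage_image _ _) ?_
  rintro b ⟨b', hb', he⟩
  exact h b' b (fun e he' => congrFun he ⟨e, he'⟩) hb'

theorem DependsOnBits.measurableSet {s : Finset (Sym2 V)} {X : Set (Sym2 V → Bool)}
    (h : DependsOnBits s X) : MeasurableSet X := by
  rw [h.eq_preimage]
  exact (measurable_pi_lambda _ fun e => measurable_pi_apply _) (Set.toFinite _).measurableSet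

theorem indep_disjoint (p : ℝ) {s t : Finset (Sym2 V)} (hst : Disjoint s t)
    {X Y : Set (Sym2 V → Bool)} (hX : DependsOnBits s X) (hY : DependsOnBits t Y) :
    (bitLaw V p).real (X ∩ Y) = (bitLaw V p).real X * (bitLaw V p).real Y := by
  have hi : iIndepFun (fun (e : Sym2 V) b => b e) (bitLaw V p) := by
    rw [bitLaw_eq]
    exact iIndepFun_infinitePi (X := fun _ b => b) fun _ => measurable_id
  have h := (hi.indepFun_finset s t hst fun e => measurable_pi_apply e)
  rw [measureReal_def, measureReal_def, measureReal_def, ← ENNReal.toReal_mul]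
  congr 1
  rw [hX.eq_preimage, hY.eq_preimage]
  exact indepFun_iff_measure_inter_preimage_eq_mul.1 h _ _
    (Set.toFinite _).measurableSet (Set.toFinite _).measurableSet

theorem prob_box {p : ℝ} (s : Finset (Sym2 V)) (v : Bool) :
    (bitLaw V p).real {b | ∀ e ∈ s, b e = v} = (bern p).real {v} ^ s.card := by
  have : {b : Sym2 V → Bool | ∀ e ∈ s, b e = v} = Set.pi (s : Set (Sym2 V)) fun _ => {v} := by
    ext b; simp [Set.mem_pi]
  rw [this, measureReal_def, bitLaw_eq,
    Measure.infinitePi_pi _ fun _ _ => measurableSet_singleton v, prod_const,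
    ENNReal.toReal_pow]
  rfl

/-- `x` and `y` are joined by open bits. -/
def Conn (G : SimpleGraph V) (x y : V) : Set (Sym2 V → Bool) :=
  {b | (bitGraph G b).Reachable x y}

variable [DecidableEq V] (G : SimpleGraph V) [G.LocallyFinite]

theorem conn_eq (x y : V) :
    Conn G x y = ⋃ n : ℕ, ⋃ w ∈ G.finsetWalkLength n x y,
      {b : Sym2 V → Bool | w.edges.Nodup ∧ ∀ e ∈ w.edges, b e = true} := by
  ext b
  simp only [Conn, Set.mem_setOf_eq, Set.mem_iUnion, exists_prop,
    SimpleGraph.mem_finsetWalkLength_iff]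
  constructor
  · intro h
    obtain ⟨q, hq⟩ := h.exists_isPath
    refine ⟨_, q.mapLe (bitGraph_le G b), rfl, ?_, fun e he => ?_⟩
    · exact (hq.mapLe (bitGraph_le G b)).isTrail.edges_nodup
    · rw [SimpleGraph.Walk.edges_mapLe_eq_edges] at he
      have := q.edges_subset_edgeSet he
      induction e using Sym2.ind with
      | _ u w => exact this.2
  · rintro ⟨n, w, -, -, he⟩
    refine ⟨w.transfer _ fun e h => ?_⟩
    have h1 := w.edges_subset_edgeSet h
    have h2 := he e h
    induction e using Sym2.ind with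
    | _ u v => exact ⟨h1, h2⟩

theorem measurableSet_conn (x y : V) : MeasurableSet (Conn G x y) := by
  rw [conn_eq]
  refine .iUnion fun n => Finset.measurableSet_biUnion _ fun w _ => ?_
  refine (DependsOnBits.measurableSet (s := w.edges.toFinset) fun b b' h hb => ⟨hb.1, fun e he => ?_⟩)
  rw [← h e (List.mem_toFinset.2 he)]
  exact hb.2 e he

theorem conn_le {p a : ℝ} (hp : 0 ≤ p) (hp1 : p ≤ 1) (ha : 0 ≤ a) (hn : NormLe G a)
    (hpa : p * a < 1) {R : ℕ} (x y : V) (hR : ∀ w : G.Walk x y, R ≤ w.length) :
    (bitLaw V p).real (Conn G x y) ≤ (p * a) ^ R / (1 - p * a) := by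
  set t : ℕ → Set (Sym2 V → Bool) := fun n => ⋃ w ∈ G.finsetWalkLength n x y,
    {b : Sym2 V → Bool | w.edges.Nodup ∧ ∀ e ∈ w.edges, b e = true}
  have ht : ∀ n, (bitLaw V p).real (t n) ≤ (p * a) ^ n := fun n => by
    refine (measureReal_biUnion_finset_le _ _).trans ?_
    have hb : ∀ w ∈ G.finsetWalkLength n x y, (bitLaw V p).real
        {b : Sym2 V → Bool | w.edges.Nodup ∧ ∀ e ∈ w.edges, b e = true} ≤ p ^ n := fun w hw => by
      by_cases hnd : w.edges.Nodup
      · refine (measureReal_mono (s₂ := {b | ∀ e ∈ w.edges.toFinset, b e = true}) ?_).trans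
          (le_of_eq ?_)
        · exact fun b hb e he => hb.2 e (List.mem_toFinset.1 he)
        · rw [prob_box, bern_true hp hp1, List.toFinset_card_of_nodup hnd,
            SimpleGraph.Walk.length_edges, SimpleGraph.mem_finsetWalkLength_iff.1 hw]
      · simp [hnd, pow_nonneg hp]
    refine (sum_le_sum hb).trans ?_
    rw [sum_const, nsmul_eq_mul, mul_comm, mul_pow]
    refine mul_le_mul_of_nonneg_left ?_ (pow_nonneg hp n)
    exact (card_finsetWalkLength_le n x y).trans
      ((le_abs_self _).trans (walks_le ha hn y n x))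
  have hsub : Conn G x y ⊆ ⋃ n : ℕ, t (n + R) := by
    rw [conn_eq]
    intro b hb
    simp only [Set.mem_iUnion, t] at hb ⊢
    obtain ⟨n, w, hw, h⟩ := hb
    have : R ≤ n := (hR w).trans (SimpleGraph.mem_finsetWalkLength_iff.1 hw).le
    exact ⟨n - R, by rw [Nat.sub_add_cancel this]; exact ⟨w, hw, h⟩⟩
  have hs : Summable fun n => (p * a) ^ (n + R) := by
    simp only [pow_add]
    exact (summable_geometric_of_lt_one (by positivity) hpa).mul_right _
  have hfin : bitLaw V p (⋃ n : ℕ, t (n + R)) ≤ ENNReal.ofReal ((p * a) ^ R / (1 - p * a)) := by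
    refine (measure_iUnion_le _).trans ?_
    calc ∑' n, bitLaw V p (t (n + R)) ≤ ∑' n, ENNReal.ofReal ((p * a) ^ (n + R)) :=
          ENNReal.tsum_le_tsum fun n => by
            rw [← ofReal_measureReal (measure_ne_top _ _)]; exact ENNReal.ofReal_le_ofReal (ht _)
      _ = _ := by
          rw [← ENNReal.ofReal_tsum_of_nonneg (fun n => by positivity) hs]
          congr 1
          simp only [pow_add]
          rw [tsum_mul_right, tsum_geometric_of_lt_one (by positivity) hpa]
          ring
  refine ENNReal.toReal_le_of_le_ofReal (div_nonneg (by positivity) (by linarith)) ?_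
  exact (measure_mono hsub).trans hfin

end Vale.Agent.P165.LargeDegree
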