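import Vale.Agent.P165.LargeDegree.Grow

/-!
P165: large degree and positive expansion give a nonuniqueness phase.
-/

open MeasureTheory Finset Filter Topology

namespace Vale.Agent.P165.LargeDegree

variable {V : Type*} [DecidableEq V] (G : SimpleGraph V) [G.LocallyFinite]

/-- Vertices reachable from `S` in at most `n` steps. -/
def nball : ℕ → Finset V → Finset V
  | 0, S => S
  | n + 1, S => nball n S ∪ nb G (nball n S)

theorem nball_mono {m n : ℕ} (h : m ≤ n) (S : Finset V) : nball G m S ⊆ nball G n S := by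
  induction h with
  | refl => exact subset_rfl
  | step _ ih => exact ih.trans subset_union_left

theorem nball_step (n : ℕ) : ∀ S : Finset V, nball G n (S ∪ nb G S) = nball G (n + 1) S := by
  induction n with
  | zero => exact fun S => rfl
  | succ n ih => intro S; rw [nball, ih]; rfl

theorem mem_nball {u v : V} (w : G.Walk u v) :
    ∀ S : Finset V, u ∈ S → v ∈ nball G w.length S := by
  induction w with
  | nil => exact fun S h => h
  | cons h p ih =>
    intro S hu
    rw [SimpleGraph.Walk.length_cons, ← nball_step]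
    exact ih _ (mem_union_right _ (mem_biUnion.2
      ⟨_, hu, (SimpleGraph.mem_neighborFinset _ _ _).2 h⟩))

theorem countable_of_connected (hc : G.Connected) : Countable V := by
  obtain ⟨x⟩ := hc.nonempty
  have : (Set.univ : Set V) ⊆ ⋃ n, (nball G n {x} : Set V) := fun y _ => by
    obtain ⟨w⟩ := hc.preconnected x y
    exact Set.mem_iUnion.2 ⟨_, mem_nball G w {x} (mem_singleton_self x)⟩
  exact Set.countable_univ_iff.1
    ((Set.countable_iUnion fun n => (nball G n {x}).countable_toSet).mono this)

theorem exists_separated [Infinite V] (n : ℕ) :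
    ∃ A : Finset V, A.card = n ∧ ∀ z, cnt G A z ≤ 1 := by
  induction n with
  | zero => exact ⟨∅, rfl, fun z => by simp [cnt]⟩
  | succ n ih =>
    obtain ⟨A, hA, hsep⟩ := ih
    obtain ⟨y, hy⟩ := Infinite.exists_notMem_finset (A ∪ nb G (nb G A))
    rw [mem_union, not_or] at hy
    refine ⟨insert y A, by rw [card_insert_of_notMem hy.1, hA], fun z => ?_⟩
    by_cases hz : y ∈ G.neighborFinset z
    · have h0 : cnt G A z = 0 := cnt_eq_zero fun hzA => hy.2 (mem_biUnion.2 ⟨z, hzA, hz⟩)
      rw [cnt, card_eq_zero] at h0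
      rw [cnt, inter_insert_of_mem hz, h0]
      simp
    · rw [cnt, inter_insert_of_notMem hz]
      exact hsep z

/-- The cluster of `x` in a bit configuration is infinite. -/
def Clu (x : V) : Set (Sym2 V → Bool) := {b | {y | b ∈ Conn G x y}.Infinite}

theorem measurableSet_clu [Countable V] (x : V) : MeasurableSet (Clu G x) := by
  have : Clu G x = ⋂ F : Finset V, ⋃ y : V, ⋃ _ : y ∉ F, Conn G x y := by
    ext b
    simp only [Clu, Set.mem_setOf_eq, Set.mem_iInter, Set.mem_iUnion, exists_prop]
    refine ⟨fun h F => ?_, fun h hfin => ?_⟩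
    · obtain ⟨y, hy, hyF⟩ := h.exists_notMem_finset F
      exact ⟨y, hyF, hy⟩
    · obtain ⟨y, hy, hb⟩ := h hfin.toFinset
      exact hy (hfin.mem_toFinset.2 hb)
  rw [this]
  exact .iInter fun F => .iUnion fun y => .iUnion fun _ => measurableSet_conn G x y

theorem bits_mem_clu (p : ℝ) (η : Sym2 V → ℝ) (x : V) :
    bits p η ∈ Clu G x ↔ InfCluster G p η x := by
  simp only [Clu, InfCluster, openGraph_eq, Conn, Set.mem_setOf_eq]

theorem labelLaw_preimage (p : ℝ) {X : Set (Sym2 V → Bool)} (hX : MeasurableSet X) :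
    labelLaw V (bits p ⁻¹' X) = bitLaw V p X :=
  (Measure.map_apply (measurable_bits p) hX).symm

variable {D : ℕ} (hreg : ∀ x, G.degree x = D)
include hreg

theorem percolates [Countable V] [Infinite V] {a p c g θ μ K γ : ℝ} (hn : NormLe G a)
    (C : Consts D a p c g θ μ K γ) : 0 < labelLaw V (existsInf G p) := by
  set R := (c / γ ^ 2 + (10 * c + 16 * c ^ 2 * μ) / c ^ 2) * D * g / (g - 1) with hR
  obtain ⟨N, hN⟩ := exists_nat_gt (max 1 (4 * R))
  have hN1 : (1 : ℝ) < N := (le_max_left _ _).trans_lt hN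
  obtain ⟨A, hA, hsep⟩ := exists_separated G N
  have hA0 : A.Nonempty := card_pos.1 (by rw [hA]; exact Nat.cast_pos.1 (one_pos.trans hN1))
  have hadm : Admissible G D μ K A A := by
    refine ⟨subset_rfl, le_mul_of_one_le_left (Nat.cast_nonneg _) C.K_one, ?_⟩
    calc coll G A ≤ ∑ y ∈ nb G A, (cnt G A y : ℝ) := sum_le_sum fun y _ => by
          have h1 : (cnt G A y : ℝ) ≤ 1 := by exact_mod_cast hsep y
          have h0 : (0 : ℝ) ≤ cnt G A y := Nat.cast_nonneg _
          nlinarith
      _ = D * A.card := by rw [← Nat.cast_sum, sum_cnt_nb hreg A, Nat.cast_mul]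
      _ ≤ μ * D * A.card := by
          rw [mul_assoc]; exact le_mul_of_one_le_left (by positivity) C.μ_one
  set Ev : ℕ → Set (Sym2 V → Bool) := fun m =>
    ⋃ S : Finset V, ⋃ _ : m ≤ S.card, ⋂ y ∈ S, ⋃ x ∈ A, Conn G x y
  have hEv : ∀ m, MeasurableSet (Ev m) := fun m => .iUnion fun S => .iUnion fun _ =>
    Finset.measurableSet_biInter _ fun y _ =>
      Finset.measurableSet_biUnion _ fun x _ => measurableSet_conn G x y
  have hg : 1 < g := C.g_one
  have hprob : ∀ m, ENNReal.ofReal (3 / 4) ≤ bitLaw V p (Ev m) := fun m => by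
    obtain ⟨n, hn'⟩ := pow_unbounded_of_one_lt (m : ℝ) hg
    have h1 := survive_prob hreg hn C n A A hA0 hadm
    have h2 : R / A.card ≤ 1 / 4 := by
      rw [div_le_iff₀ (Nat.cast_pos.2 hA0.card_pos), hA]
      linarith [(le_max_right 1 (4 * R)).trans hN.le]
    refine le_trans ?_ (measure_mono (s := survive G D g μ n A A) fun b hb => ?_)
    · rw [← ofReal_measureReal (measure_ne_top _ _)]
      exact ENNReal.ofReal_le_ofReal (by linarith [h1])
    · obtain ⟨S, hS, hr⟩ := survive_reach C n A A b hb
      simp only [Ev, Set.mem_iUnion, Set.mem_iInter, exists_prop]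
      refine ⟨S, ?_, fun y hy => hr y hy⟩
      have hc1 : (1 : ℝ) ≤ A.card := by exact_mod_cast hA0.card_pos
      have := le_mul_of_one_le_right (pow_nonneg (zero_le_one.trans hg.le) n) hc1
      exact_mod_cast (hn'.le.trans this).trans hS
  have hanti : Antitone Ev := fun i j hij b hb => by
    simp only [Ev, Set.mem_iUnion, exists_prop] at hb ⊢
    obtain ⟨S, hS, h⟩ := hb
    exact ⟨S, hij.trans hS, h⟩
  have hlim := tendsto_measure_iInter_atTop (μ := bitLaw V p)
    (fun m => (hEv m).nullMeasurableSet) hanti ⟨0, measure_ne_top _ _⟩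
  have hpos : ENNReal.ofReal (3 / 4) ≤ bitLaw V p (⋂ m, Ev m) :=
    ge_of_tendsto hlim (Eventually.of_forall hprob)
  have hsub : bits p ⁻¹' (⋂ m, Ev m) ⊆ existsInf G p := by
    intro η hη
    simp only [Set.mem_preimage, Set.mem_iInter] at hη
    by_contra hno
    have hfin : ∀ x, {y | bits p η ∈ Conn G x y}.Finite := fun x =>
      Set.not_infinite.1 fun h => hno ⟨x, (bits_mem_clu G p η x).1 h⟩
    set F := A.biUnion fun x => (hfin x).toFinset
    have hF := hη (F.card + 1)
    simp only [Ev, Set.mem_iUnion, Set.mem_iInter, exists_prop] at hF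
    obtain ⟨S, hS, h⟩ := hF
    have : S ⊆ F := fun y hy => by
      obtain ⟨x, hx, hxy⟩ := h y hy
      exact mem_biUnion.2 ⟨x, hx, (hfin x).mem_toFinset.2 hxy⟩
    have := card_le_card this
    omega
  refine lt_of_lt_of_le ?_ (measure_mono hsub)
  rw [labelLaw_preimage p (.iInter hEv)]
  exact lt_of_lt_of_le (ENNReal.ofReal_pos.2 (by norm_num)) hpos

theorem pc_le [Countable V] [Infinite V] {a p c g θ μ K γ : ℝ} (hn : NormLe G a)
    (C : Consts D a p c g θ μ K γ) : pc G ≤ p :=
  csInf_le ⟨0, fun q hq => hq.1⟩ ⟨C.p_nonneg, C.p_le, percolates G hreg hn C⟩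

omit hreg

theorem not_unique [Countable V] [Infinite V] (hc : G.Connected) (hq : IsQuasiTransitive G)
    {a : ℝ} (ha : 0 ≤ a) (hn : NormLe G a) {p : ℝ} (hp : 0 ≤ p) (hp1 : p ≤ 1) (hpa : p * a < 1) :
    labelLaw V (uniqueInf G p) ≠ 1 := by
  intro huniq
  classical
  set EB : Finset V → Set (Sym2 V → Bool) := fun B => ⋃ x ∈ B, Clu G x
  have hEB : ∀ B, MeasurableSet (EB B) := fun B =>
    Finset.measurableSet_biUnion _ fun x _ => measurableSet_clu G x
  have hall : bitLaw V p (⋃ B, EB B) = 1 := by
    refine le_antisymm prob_le_one ?_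
    rw [← labelLaw_preimage p (.iUnion hEB), ← huniq]
    refine measure_mono fun η hη => ?_
    obtain ⟨x, hx⟩ := hη.1
    simp only [Set.mem_preimage, Set.mem_iUnion, EB, exists_prop]
    exact ⟨{x}, x, mem_singleton_self x, (bits_mem_clu G p η x).2 hx⟩
  have hmono : Monotone EB := fun B B' h => Set.biUnion_subset_biUnion_left h
  have hlim := tendsto_measure_iUnion_atTop (μ := bitLaw V p) hmono
  rw [hall] at hlim
  obtain ⟨B0, hB0⟩ := (hlim.eventually_const_le (show ENNReal.ofReal (7 / 8) < 1 by
    rw [ENNReal.ofReal_lt_one]; norm_num)).exists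
  -- an infinite orbit
  obtain ⟨F, hF⟩ := hq
  choose gx hgx using hF
  obtain ⟨f, hf⟩ : ∃ f : F, {x : V | (⟨gx x x, hgx x⟩ : F) = f}.Infinite := by
    by_contra hcon
    simp only [not_exists, Set.not_infinite] at hcon
    exact Set.infinite_univ (α := V) ((Set.finite_iUnion hcon).subset fun x _ =>
      Set.mem_iUnion.2 ⟨⟨gx x x, hgx x⟩, rfl⟩)
  obtain ⟨x1, hx1⟩ := hf.nonempty
  set B := insert x1 B0
  have hB : ENNReal.ofReal (7 / 8) ≤ bitLaw V p (EB B) :=
    hB0.trans (measure_mono (hmono (subset_insert x1 B0)))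
  set r := B.sup fun b => (Classical.choice (hc.preconnected x1 b)).length
  set q := p * a
  have hq0 : 0 ≤ q := mul_nonneg hp ha
  have hlim0 : Tendsto (fun R : ℕ => ((B.card : ℝ) ^ 2) * (q ^ R / (1 - q))) atTop (𝓝 0) := by
    simpa using ((tendsto_pow_atTop_nhds_zero_of_lt_one hq0 hpa).div_const (1 - q)).const_mul
      ((B.card : ℝ) ^ 2)
  obtain ⟨R, hR⟩ := (hlim0.eventually_le_const (by norm_num : (0 : ℝ) < 1 / 8)).exists
  obtain ⟨x', hx', hfar⟩ := hf.exists_notMem_finset (nball G (R + r) B)
  set g : G ≃g G := (gx x1).trans (gx x').symm with hg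
  have hgx1 : g x1 = x' := by
    have : gx x1 x1 = gx x' x' := congrArg Subtype.val (hx1.trans hx'.symm)
    simp [hg, this]
  have hdist : ∀ b ∈ B, ∀ b' ∈ B, ∀ u : G.Walk b (g b'), R ≤ u.length := by
    intro b hb b' hb' u
    by_contra hlt
    set v := (Classical.choice (hc.preconnected x1 b')).map g.toHom
    have hv : v.length ≤ r := by
      rw [SimpleGraph.Walk.length_map]
      exact le_sup (f := fun b => (Classical.choice (hc.preconnected x1 b)).length) hb'
    have hmem := mem_nball G (u.append v.reverse) B hb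
    rw [SimpleGraph.Walk.length_append, SimpleGraph.Walk.length_reverse] at hmem
    exact hfar (by
      have := nball_mono G (m := u.length + v.length) (n := R + r) (by omega) B hmem
      simpa [hgx1] using this)
  set τ : (Sym2 V → Bool) → (Sym2 V → Bool) := fun b e => b (Sym2.map g e)
  have hτm : Measurable τ := measurable_pi_lambda _ fun e => measurable_pi_apply _
  have hτ : (bitLaw V p).map τ = bitLaw V p := by
    rw [bitLaw_eq]
    refine Measure.eq_infinitePi _ fun S t ht => ?_
    rw [Measure.map_apply hτm (.pi S.countable_toSet fun i _ => ht i)]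
    have hinj : Function.Injective (Sym2.map g : Sym2 V → Sym2 V) :=
      Sym2.map.injective g.injective
    have : τ ⁻¹' Set.pi S t = Set.pi ((S.image (Sym2.map g) : Finset (Sym2 V)) : Set (Sym2 V))
        (fun e => t (Sym2.map g.symm e)) := by
      ext b
      have hid : ∀ e : Sym2 V, Sym2.map g.symm (Sym2.map g e) = e := fun e => by
        rw [Sym2.map_map]
        induction e using Sym2.ind with
        | _ u v => simp
      simp only [Set.mem_preimage, Set.mem_pi, mem_coe, τ, forall_mem_image, hid]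
    rw [this, Measure.infinitePi_pi _ fun i _ => ht _, prod_image hinj.injOn]
    refine prod_congr rfl fun e _ => ?_
    congr 2
    rw [Sym2.map_map]
    induction e using Sym2.ind with
    | _ u v => simp
  have hiso : ∀ b x y, b ∈ Conn G (g x) (g y) ↔ τ b ∈ Conn G x y := by
    intro b x y
    let e : bitGraph G (τ b) ≃g bitGraph G b :=
      { toEquiv := g.toEquiv
        map_rel_iff' := fun {u v} => by
          simp only [bitGraph, τ, Sym2.map_mk]
          exact and_congr_left' g.map_adj_iff }
    exact e.reachable_iff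
  have hB' : ENNReal.ofReal (7 / 8) ≤ bitLaw V p (τ ⁻¹' EB B) := by
    rwa [← Measure.map_apply hτm (hEB B), hτ]
  set bad : Set (Sym2 V → Bool) :=
    (EB B)ᶜ ∪ (τ ⁻¹' EB B)ᶜ ∪ ⋃ b ∈ B, ⋃ b' ∈ B, Conn G b (g b')
  have hbadm : MeasurableSet bad := ((hEB B).compl.union (hτm (hEB B)).compl).union
    (Finset.measurableSet_biUnion _ fun b _ => Finset.measurableSet_biUnion _ fun b' _ =>
      measurableSet_conn G b (g b'))
  have hbad : (bitLaw V p).real bad ≤ 3 / 8 := by
    have hge : ∀ X : Set (Sym2 V → Bool), MeasurableSet X →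
        ENNReal.ofReal (7 / 8) ≤ bitLaw V p X → (bitLaw V p).real Xᶜ ≤ 1 / 8 := fun X hX h => by
      rw [measureReal_compl hX, probReal_univ]
      have := (ENNReal.ofReal_le_iff_le_toReal (measure_ne_top _ _)).1 h
      rw [measureReal_def]
      linarith
    refine (measureReal_union_le _ _).trans ?_
    refine le_trans (add_le_add ((measureReal_union_le _ _).trans
      (add_le_add (hge _ (hEB B) hB) (hge _ (hτm (hEB B)) hB'))) ?_)
      (show (1 : ℝ) / 8 + 1 / 8 + 1 / 8 ≤ 3 / 8 by norm_num)
    refine ((measureReal_biUnion_finset_le _ _).trans (sum_le_sum fun b hb =>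
      (measureReal_biUnion_finset_le _ _).trans (sum_le_sum fun b' hb' =>
        conn_le G hp hp1 ha hn hpa b (g b') (hdist b hb b' hb')))).trans ?_
    simp only [sum_const, nsmul_eq_mul]
    rw [← mul_assoc, ← sq]
    exact hR
  have hsub : uniqueInf G p ⊆ bits p ⁻¹' bad := by
    rintro η ⟨-, hu⟩
    by_cases h1 : bits p η ∈ EB B
    · by_cases h2 : τ (bits p η) ∈ EB B
      · refine Or.inr ?_
        simp only [EB, Set.mem_iUnion, exists_prop] at h1 h2
        obtain ⟨b, hb, hbc⟩ := h1
        obtain ⟨b', hb', hbc'⟩ := h2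
        have hinf : InfCluster G p η (g b') := by
          rw [← bits_mem_clu]
          refine ((Set.Infinite.image g.injective.injOn hbc').mono ?_)
          rintro _ ⟨y, hy, rfl⟩
          exact (hiso _ b' y).2 hy
        have := hu b (g b') ((bits_mem_clu G p η b).1 hbc) hinf
        rw [openGraph_eq] at this
        simp only [Set.mem_iUnion, exists_prop]
        exact ⟨b, hb, b', hb', this⟩
      · exact Or.inl (Or.inr h2)
    · exact Or.inl (Or.inl h1)
  have h1 := measure_mono (μ := labelLaw V) hsub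
  rw [huniq, labelLaw_preimage p hbadm, ← ofReal_measureReal (measure_ne_top _ _),
    ENNReal.one_le_ofReal] at h1
  linarith

theorem one_mem_unique [Countable V] [Infinite V] (hc : G.Connected) :
    labelLaw V (uniqueInf G 1) = 1 := by
  refine le_antisymm prob_le_one ?_
  set X : Set (Sym2 V → Bool) := ⋂ e : Sym2 V, {b | b e = true}
  have hX : MeasurableSet X := .iInter fun e =>
    (measurable_pi_apply (X := fun _ : Sym2 V => Bool) e) (measurableSet_singleton true)
  have h1 : bitLaw V 1 X = 1 := by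
    rw [← prob_compl_eq_zero_iff hX, Set.compl_iInter]
    refine measure_iUnion_null fun e => ?_
    have := prob_box (p := (1 : ℝ)) ({e} : Finset (Sym2 V)) false
    rw [bern_false zero_le_one le_rfl] at this
    simp only [sub_self, card_singleton, pow_one, mem_singleton, forall_eq, measureReal_def,
      ENNReal.toReal_eq_zero_iff, measure_ne_top, or_false] at this
    simpa [Set.compl_setOf] using this
  rw [← h1, ← labelLaw_preimage 1 hX]
  refine measure_mono fun η hη => ?_
  have hconn : ∀ x y, (openGraph G 1 η).Reachable x y := fun x y => by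
    rw [openGraph_eq]
    refine (hc.preconnected x y).mono fun u v huv => ⟨huv, ?_⟩
    simpa [X] using Set.mem_iInter.1 hη s(u, v)
  obtain ⟨x⟩ := hc.nonempty
  refine ⟨⟨x, ?_⟩, fun u v _ _ => hconn u v⟩
  exact Set.infinite_univ.mono fun y _ => hconn x y

theorem le_pu [Countable V] [Infinite V] (hc : G.Connected) (hq : IsQuasiTransitive G)
    {a : ℝ} (ha : 0 < a) (hn : NormLe G a) : 1 / a ≤ pu G := by
  refine le_csInf ⟨1, zero_le_one, le_rfl, one_mem_unique G hc⟩ fun p hp => ?_
  by_contra hlt
  rw [not_le, lt_div_iff₀ ha] at hlt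
  exact not_unique G hc hq ha.le hn hp.1 hp.2.1 hlt hp.2.2

end Vale.Agent.P165.LargeDegree
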