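import Mathlib

/-!
P165: Bernoulli bond percolation on a graph, in the standard monotone coupling, and its two
critical values.
-/

open MeasureTheory

namespace Vale.Agent.P165.LargeDegree

variable {V : Type*}

/-- Uniform law on the unit interval. -/
noncomputable def unif : Measure ℝ := volume.restrict (Set.Ico 0 1)

/-- Independent uniform labels on the edges. -/
noncomputable def labelLaw (V : Type*) : Measure (Sym2 V → ℝ) :=
  Measure.infinitePi fun _ => unif

/-- The open subgraph at parameter `p`: an edge is open when its label is below `p`. -/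
def openGraph (G : SimpleGraph V) (p : ℝ) (η : Sym2 V → ℝ) : SimpleGraph V where
  Adj x y := G.Adj x y ∧ η s(x, y) < p
  symm := ⟨fun x y h => ⟨h.1.symm, by rw [Sym2.eq_swap]; exact h.2⟩⟩
  loopless := ⟨fun x h => h.1.ne rfl⟩

/-- The cluster of `x` is infinite. -/
def InfCluster (G : SimpleGraph V) (p : ℝ) (η : Sym2 V → ℝ) (x : V) : Prop :=
  {y | (openGraph G p η).Reachable x y}.Infinite

/-- There is an infinite cluster. -/
def existsInf (G : SimpleGraph V) (p : ℝ) : Set (Sym2 V → ℝ) :=
  {η | ∃ x, InfCluster G p η x}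

/-- There is exactly one infinite cluster. -/
def uniqueInf (G : SimpleGraph V) (p : ℝ) : Set (Sym2 V → ℝ) :=
  {η | (∃ x, InfCluster G p η x) ∧
    ∀ x y, InfCluster G p η x → InfCluster G p η y → (openGraph G p η).Reachable x y}

/-- The critical value. -/
noncomputable def pc (G : SimpleGraph V) : ℝ :=
  sInf {p | 0 ≤ p ∧ p ≤ 1 ∧ 0 < labelLaw V (existsInf G p)}

/-- The uniqueness value. -/
noncomputable def pu (G : SimpleGraph V) : ℝ :=
  sInf {p | 0 ≤ p ∧ p ≤ 1 ∧ labelLaw V (uniqueInf G p) = 1}

/-- Every vertex is moved by an automorphism into one fixed finite set. -/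
def IsQuasiTransitive (G : SimpleGraph V) : Prop :=
  ∃ F : Finset V, ∀ x, ∃ g : G ≃g G, g x ∈ F

/-- The edge boundary of every finite set is at least `h` times its size. -/
def HasEdgeExpansion (G : SimpleGraph V) (h : ℝ) : Prop :=
  ∀ A : Finset V, h * A.card ≤
    (Set.ncard {e : V × V | e.1 ∈ A ∧ e.2 ∉ A ∧ G.Adj e.1 e.2} : ℝ)

end Vale.Agent.P165.LargeDegree
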