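import Vale.Agent.P165.LargeDegree.Product
import Vale.Agent.P165.LargeDegree.Spectral

/-!
P165: one round of exploration. The front grows by a factor above one and stays spread out.
-/

open Finset

namespace Vale.Agent.P165.LargeDegree

variable {V : Type*} [DecidableEq V] (G : SimpleGraph V) [G.LocallyFinite]

/-- Neighbours of `y` inside `A`. -/
def cnt (A : Finset V) (y : V) : ℕ := (G.neighborFinset y ∩ A).card

/-- The collision count of a front. -/
noncomputable def coll (A : Finset V) : ℝ := ∑ y ∈ nb G A, (cnt G A y : ℝ) ^ 2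

/-- Vertices that can be discovered. -/
def cand (A S : Finset V) : Finset V := nb G A \ S

/-- Probability of discovering `y`. -/
noncomputable def disc (p : ℝ) (A : Finset V) (y : V) : ℝ := 1 - (1 - p) ^ cnt G A y

/-- An admissible front inside the explored set. -/
def Admissible (D : ℕ) (μ K : ℝ) (A S : Finset V) : Prop :=
  A ⊆ S ∧ (S.card : ℝ) ≤ K * A.card ∧ coll G A ≤ μ * D * A.card

/-- The front grows and stays spread out. -/
def GoodFront (D : ℕ) (g μ : ℝ) (A U : Finset V) : Prop :=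
  g * A.card ≤ U.card ∧ coll G U ≤ μ * D * U.card

/-- The constants fit together. -/
structure Consts (D : ℕ) (a p c g θ μ K γ : ℝ) : Prop where
  p_nonneg : 0 ≤ p
  p_le : p ≤ 1
  pD : p * D = c
  D_pos : 1 ≤ (D : ℝ)
  a_nonneg : 0 ≤ a
  a_le : a ≤ D
  ap : (a * p) ^ 2 ≤ θ
  g_one : 1 < g
  c_pos : 0 < c
  μ_one : 1 ≤ μ
  slack : 2 * c ≤ (g - θ) * μ
  K_one : 1 ≤ K
  K_grow : g ≤ K * (g - 1)
  γ_pos : 0 < γ
  gap : g + 3 * γ ≤ c
  big1 : c ^ 2 * μ * K ≤ γ ^ 2 * D
  big2 : c ^ 2 * μ ≤ γ * D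

variable {G}

theorem disc_le {p : ℝ} (h0 : 0 ≤ p) (h1 : p ≤ 1) (A : Finset V) (y : V) :
    disc G p A y ≤ p * cnt G A y := by
  have := one_add_mul_le_pow (a := -p) (by linarith) (cnt G A y)
  rw [disc]
  rw [← sub_eq_add_neg] at this
  linarith

theorem le_disc {p : ℝ} (h0 : 0 ≤ p) (h1 : p ≤ 1) (A : Finset V) (y : V) :
    p * cnt G A y - (p * cnt G A y) ^ 2 ≤ disc G p A y := by
  set n := cnt G A y
  have hb := one_add_mul_le_pow (a := p) (by linarith) n
  have h2 : (1 - p) ^ n * (1 + p) ^ n ≤ 1 := by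
    rw [← mul_pow]
    exact pow_le_one₀ (mul_nonneg (by linarith) (by linarith)) (by nlinarith)
  have hq : (0 : ℝ) ≤ (1 - p) ^ n := pow_nonneg (by linarith) n
  have h3 : (1 - p) ^ n * (1 + n * p) ≤ 1 := (mul_le_mul_of_nonneg_left hb hq).trans h2
  have hx : (0 : ℝ) ≤ n * p := by positivity
  rw [disc]
  nlinarith [mul_nonneg (mul_nonneg hx hx) hx]

theorem sum_cnt_comm (A B : Finset V) :
    ∑ y ∈ B, cnt G A y = ∑ x ∈ A, cnt G B x := by
  simp only [cnt, card_eq_sum_ones]
  refine sum_comm' fun y x => ?_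
  simp only [mem_inter, SimpleGraph.mem_neighborFinset]
  exact ⟨fun h => ⟨⟨h.2.1.symm, h.1⟩, h.2.2⟩, fun h => ⟨h.1.2, h.1.1.symm, h.2⟩⟩

theorem cnt_eq_zero {A : Finset V} {y : V} (h : y ∉ nb G A) : cnt G A y = 0 := by
  rw [cnt, card_eq_zero, ← not_nonempty_iff_eq_empty]
  rintro ⟨x, hx⟩
  rw [mem_inter, SimpleGraph.mem_neighborFinset] at hx
  exact h (mem_biUnion.2 ⟨x, hx.2, (SimpleGraph.mem_neighborFinset _ _ _).2 hx.1.symm⟩)

theorem coll_eq_sum {A Z : Finset V} (h : nb G A ⊆ Z) :
    coll G A = ∑ y ∈ Z, (cnt G A y : ℝ) ^ 2 :=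
  sum_subset h fun y _ hy => by rw [cnt_eq_zero hy]; simp

variable {D : ℕ} (hreg : ∀ x, G.degree x = D)
include hreg

theorem sum_cnt_nb (A : Finset V) : ∑ y ∈ nb G A, cnt G A y = D * A.card := by
  rw [sum_cnt_comm, mul_comm, ← smul_eq_mul, ← sum_const]
  refine sum_congr rfl fun x hx => ?_
  have : G.neighborFinset x ⊆ nb G A := fun y hy => mem_biUnion.2 ⟨x, hx, hy⟩
  rw [cnt, inter_eq_left.2 this, G.card_neighborFinset_eq_degree, hreg]

theorem cnt_le (A : Finset V) (y : V) : cnt G A y ≤ D := by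
  rw [← hreg y, ← G.card_neighborFinset_eq_degree]
  exact card_le_card inter_subset_left

variable {a p c g θ μ K γ : ℝ} (hn : NormLe G a) (C : Consts D a p c g θ μ K γ)
include hn C

theorem step_bound {A S : Finset V} (hA : A.Nonempty) (h : Admissible G D μ K A S)
    [DecidablePred (GoodFront G D g μ A)] :
    ∑ U ∈ (cand G A S).powerset.filter (fun U => ¬ GoodFront G D g μ A U),
        wt (disc G p A) (cand G A S) U ≤
      (c / γ ^ 2 + (10 * c + 16 * c ^ 2 * μ) / c ^ 2) * D / A.card := by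
  classical
  obtain ⟨-, hK, hcoll⟩ := h
  set T := cand G A S with hT
  set π := disc G p A with hπ
  have h0 : ∀ i ∈ T, 0 ≤ π i := fun i _ =>
    sub_nonneg.2 (pow_le_one₀ (by linarith [C.p_le]) (by linarith [C.p_nonneg]))
  have h1 : ∀ i ∈ T, π i ≤ 1 := fun i _ => by
    have : (0 : ℝ) ≤ (1 - p) ^ cnt G A i := pow_nonneg (by linarith [C.p_le]) _
    simp only [π, disc]; linarith
  have hn0 : (0 : ℝ) < A.card := Nat.cast_pos.2 hA.card_pos
  set n : ℝ := (A.card : ℝ)
  have hD := C.D_pos
  have hp := C.p_nonneg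
  have hsum : (∑ y ∈ nb G A, (cnt G A y : ℝ)) = D * n := by
    rw [← Nat.cast_sum, sum_cnt_nb hreg A, Nat.cast_mul]
  -- mean size
  have hupper : ∑ y ∈ T, π y ≤ c * n := by
    calc ∑ y ∈ T, π y ≤ ∑ y ∈ T, p * cnt G A y :=
          sum_le_sum fun y _ => disc_le hp C.p_le A y
      _ ≤ ∑ y ∈ nb G A, p * cnt G A y :=
          sum_le_sum_of_subset_of_nonneg sdiff_subset fun y _ _ => by positivity
      _ = c * n := by rw [← mul_sum, hsum, ← mul_assoc, C.pD]
  have hold : p * ∑ y ∈ nb G A ∩ S, (cnt G A y : ℝ) ≤ γ * n := by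
    set Z := ∑ y ∈ nb G A ∩ S, (cnt G A y : ℝ)
    have hcs : Z ^ 2 ≤ (S.card : ℝ) * coll G A := by
      refine (sq_sum_le_card_mul_sum_sq).trans ?_
      exact mul_le_mul (Nat.cast_le.2 (card_le_card inter_subset_right))
        (sum_le_sum_of_subset_of_nonneg inter_subset_left fun y _ _ => sq_nonneg _)
        (sum_nonneg fun y _ => sq_nonneg _) (Nat.cast_nonneg _)
    have h2 : Z ^ 2 ≤ (K * n) * (μ * D * n) :=
      hcs.trans (mul_le_mul hK hcoll (sum_nonneg fun y _ => sq_nonneg _) (le_trans (Nat.cast_nonneg _) hK))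
    refine (le_abs_self _).trans (abs_le_of_sq_le_sq ?_ (mul_nonneg C.γ_pos.le hn0.le))
    have h3 : (p * Z) ^ 2 * D ≤ (γ * n) ^ 2 * D := by
      calc (p * Z) ^ 2 * D = p ^ 2 * D * Z ^ 2 := by ring
        _ ≤ p ^ 2 * D * ((K * n) * (μ * D * n)) := by gcongr
        _ = (p * D) ^ 2 * μ * K * n ^ 2 := by ring
        _ ≤ γ ^ 2 * D * n ^ 2 := by rw [C.pD]; exact mul_le_mul_of_nonneg_right C.big1 (sq_nonneg n)
        _ = (γ * n) ^ 2 * D := by ring
    exact le_of_mul_le_mul_right h3 (by linarith)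
  have hp2 : p ^ 2 * coll G A ≤ γ * n := by
    have h3 : (p ^ 2 * coll G A) * D ≤ (γ * n) * D := by
      calc (p ^ 2 * coll G A) * D = p ^ 2 * D * coll G A := by ring
        _ ≤ p ^ 2 * D * (μ * D * n) := by gcongr
        _ = (p * D) ^ 2 * μ * n := by ring
        _ ≤ γ * D * n := by rw [C.pD]; exact mul_le_mul_of_nonneg_right C.big2 hn0.le
        _ = (γ * n) * D := by ring
    exact le_of_mul_le_mul_right h3 (by linarith)
  have hlower : (g + γ) * n ≤ ∑ y ∈ T, π y := by
    have e1 : ∑ y ∈ T, (p * cnt G A y - (p * cnt G A y) ^ 2) ≤ ∑ y ∈ T, π y :=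
      sum_le_sum fun y _ => le_disc hp C.p_le A y
    rw [sum_sub_distrib, ← mul_sum] at e1
    have e2 : ∑ y ∈ T, (p * (cnt G A y : ℝ)) ^ 2 ≤ p ^ 2 * coll G A := by
      simp only [mul_pow, ← mul_sum]
      exact mul_le_mul_of_nonneg_left (sum_le_sum_of_subset_of_nonneg sdiff_subset
        fun y _ _ => sq_nonneg _) (sq_nonneg p)
    have e3 : p * ∑ y ∈ T, (cnt G A y : ℝ) = c * n - p * ∑ y ∈ nb G A ∩ S, (cnt G A y : ℝ) := by
      rw [hT, cand, ← C.pD, mul_assoc, ← hsum,
        ← sum_inter_add_sum_sdiff (nb G A) S fun y => (cnt G A y : ℝ)]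
      ring
    have := mul_le_mul_of_nonneg_right C.gap hn0.le
    linarith
  have hsq : ∑ y ∈ T, π y ^ 2 ≤ p ^ 2 * (μ * D * n) := by
    calc ∑ y ∈ T, π y ^ 2 ≤ ∑ y ∈ T, p ^ 2 * (cnt G A y : ℝ) ^ 2 :=
          sum_le_sum fun y hy => by
            rw [← mul_pow]; exact pow_le_pow_left₀ (h0 y hy) (disc_le hp C.p_le A y) 2
      _ ≤ p ^ 2 * (μ * D * n) := by
          rw [← mul_sum]
          refine mul_le_mul_of_nonneg_left (le_trans ?_ hcoll) (sq_nonneg p)
          exact sum_le_sum_of_subset_of_nonneg sdiff_subset fun y _ _ => sq_nonneg _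
  -- the collision functional
  set Z := nb G T with hZ
  set π' : V → ℝ := fun y => if y ∈ T then π y else 0 with hπ'
  have hπ'0 : ∀ x, x ∉ T → π' x = 0 := fun x hx => if_neg hx
  set Q : Finset V → ℝ := fun U => ∑ z ∈ Z, (cnt G U z : ℝ) ^ 2 with hQ
  have hcntlin : ∀ U z, (cnt G U z : ℝ) =
      ∑ y ∈ U, if y ∈ G.neighborFinset z then (1 : ℝ) else 0 := fun U z => by
    rw [sum_ite_mem, sum_const, nsmul_eq_mul, mul_one, cnt, inter_comm]
  have hadj : ∀ z, ∑ y ∈ T, π y * (if y ∈ G.neighborFinset z then (1 : ℝ) else 0) = adj G π' z := by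
    intro z
    simp only [mul_ite, mul_one, mul_zero, hπ', adj, sum_ite_mem, inter_comm T]
  have hEQ : ex π T Q ≤ (c + θ * μ) * D * n := by
    have e0 : ex π T Q = ∑ z ∈ Z, ex π T (fun U => (cnt G U z : ℝ) ^ 2) := by
      simp only [ex, hQ, mul_sum]; exact sum_comm
    have e1 : ∀ z, ex π T (fun U => (cnt G U z : ℝ) ^ 2) ≤ adj G π' z + adj G π' z ^ 2 := by
      intro z
      simp only [hcntlin]
      rw [ex_sq T (fun U => ∑ y ∈ U, _), ex_linear, hadj]
      refine add_le_add_left ((var_linear_le T h0 h1 _).trans (le_of_eq ?_)) _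
      rw [← hadj z]
      exact sum_congr rfl fun y _ => by split_ifs <;> simp
    rw [e0]
    refine (sum_le_sum fun z _ => e1 z).trans ?_
    rw [sum_add_distrib]
    have e2 : ∑ z ∈ Z, adj G π' z ≤ D * (c * n) := by
      calc ∑ z ∈ Z, adj G π' z
          = ∑ y ∈ T, π y * ∑ z ∈ Z, (if y ∈ G.neighborFinset z then (1 : ℝ) else 0) := by
            simp only [← hadj, mul_sum]; exact sum_comm
        _ ≤ ∑ y ∈ T, π y * D := by
            refine sum_le_sum fun y hy => mul_le_mul_of_nonneg_left ?_ (h0 y hy)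
            rw [sum_boole]
            exact_mod_cast le_trans (card_le_card fun z hz => by
              simp only [mem_filter, SimpleGraph.mem_neighborFinset] at hz
              exact (SimpleGraph.mem_neighborFinset _ _ _).2 hz.2.symm)
              ((G.card_neighborFinset_eq_degree y).trans (hreg y)).le
        _ ≤ D * (c * n) := by
            rw [← sum_mul, mul_comm]; exact mul_le_mul_of_nonneg_left hupper (by linarith)
    have e3 : ∑ z ∈ Z, adj G π' z ^ 2 ≤ θ * μ * D * n := by
      refine (hn T π' hπ'0 Z).trans ?_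
      have e4 : ∑ x ∈ T, π' x ^ 2 = ∑ y ∈ T, π y ^ 2 :=
        sum_congr rfl fun y hy => by simp [hπ', hy]
      rw [e4]
      calc a ^ 2 * ∑ y ∈ T, π y ^ 2 ≤ a ^ 2 * (p ^ 2 * (μ * D * n)) := by gcongr
        _ = (a * p) ^ 2 * (μ * D * n) := by ring
        _ ≤ θ * (μ * D * n) := by
          refine mul_le_mul_of_nonneg_right C.ap ?_
          have := C.μ_one; positivity
        _ = θ * μ * D * n := by ring
    linarith
  have hVQ : var π T Q ≤ (10 * c + 16 * c ^ 2 * μ) * (D : ℝ) ^ 3 * n := by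
    set M : V → ℝ := adj G (adj G π')
    have step : ∀ y ∈ T, ex π T (fun U => (Q (insert y U) - Q (U.erase y)) ^ 2) ≤
        10 * (D : ℝ) ^ 2 + 16 * M y ^ 2 := by
      intro y hy
      set w : V → ℝ := fun y' => if y' = y then 0 else
        ∑ z ∈ G.neighborFinset y, (if y' ∈ G.neighborFinset z then (1 : ℝ) else 0) with hw
      have hdiff : ∀ U : Finset V, Q (insert y U) - Q (U.erase y) = D + 2 * ∑ y' ∈ U, w y' := by
        intro U
        have hins : insert y U = insert y (U.erase y) := by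
          ext i; by_cases hi : i = y <;> simp [hi]
        have e1 : ∀ z, (cnt G (insert y U) z : ℝ) =
            cnt G (U.erase y) z + if y ∈ G.neighborFinset z then (1 : ℝ) else 0 := fun z => by
          rw [hins, hcntlin, hcntlin, sum_insert (notMem_erase y U), add_comm]
        have hsub : G.neighborFinset y ⊆ Z := fun z hz => mem_biUnion.2 ⟨y, hy, hz⟩
        calc Q (insert y U) - Q (U.erase y)
            = ∑ z ∈ Z, (if y ∈ G.neighborFinset z then
                (2 * (cnt G (U.erase y) z : ℝ) + 1) else 0) := by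
              simp only [hQ]
              rw [← sum_sub_distrib]
              exact sum_congr rfl fun z _ => by rw [e1]; split_ifs <;> ring
          _ = ∑ z ∈ G.neighborFinset y, (2 * (cnt G (U.erase y) z : ℝ) + 1) := by
              rw [← sum_filter]
              refine sum_congr ?_ fun _ _ => rfl
              ext z
              simp only [mem_filter, SimpleGraph.mem_neighborFinset]
              exact ⟨fun h => h.2.symm, fun h =>
                ⟨hsub ((SimpleGraph.mem_neighborFinset _ _ _).2 h), h.symm⟩⟩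
          _ = D + 2 * ∑ y' ∈ U, w y' := by
              have e3 : ∑ y' ∈ U, w y' = ∑ z ∈ G.neighborFinset y, (cnt G (U.erase y) z : ℝ) := by
                simp only [hcntlin]
                rw [sum_comm]
                refine ((sum_subset (erase_subset y U) fun x hx hx' => ?_).symm.trans
                  (sum_congr rfl fun x hx => ?_))
                · have : x = y := by by_contra hne; exact hx' (mem_erase.2 ⟨hne, hx⟩)
                  simp [hw, this]
                · simp only [hw, if_neg (ne_of_mem_erase hx)]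
              rw [sum_add_distrib, sum_const, nsmul_eq_mul, mul_one, ← mul_sum, e3,
                G.card_neighborFinset_eq_degree, hreg]
              ring
      simp only [hdiff]
      have hw0 : ∀ y', 0 ≤ w y' := fun y' => by
        simp only [hw]; split_ifs with h
        · rfl
        · exact sum_nonneg fun z _ => by split_ifs <;> norm_num
      have hwD : ∀ y', w y' ≤ D := fun y' => by
        simp only [hw]; split_ifs with h
        · linarith
        · refine (sum_le_sum fun z _ => (by split_ifs <;> norm_num :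
            (if y' ∈ G.neighborFinset z then (1 : ℝ) else 0) ≤ 1)).trans (le_of_eq ?_)
          rw [sum_const, nsmul_eq_mul, mul_one, G.card_neighborFinset_eq_degree, hreg]
      set L : Finset V → ℝ := fun U => ∑ y' ∈ U, w y'
      have hm : ex π T L ≤ M y := by
        rw [ex_linear]
        have : M y = ∑ y' ∈ T, π y' *
            ∑ z ∈ G.neighborFinset y, (if y' ∈ G.neighborFinset z then (1 : ℝ) else 0) := by
          simp only [M, adj.eq_def (G := G) (f := adj G π'), mul_sum]
          rw [sum_comm]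
          exact sum_congr rfl fun z _ => (hadj z).symm
        rw [this]
        refine sum_le_sum fun y' hy' => mul_le_mul_of_nonneg_left ?_ (h0 y' hy')
        simp only [hw]
        split_ifs
        · exact sum_nonneg fun z _ => by split_ifs <;> norm_num
        · rfl
      have hm0 : 0 ≤ ex π T L := by
        rw [ex_linear]; exact sum_nonneg fun y' hy' => mul_nonneg (h0 y' hy') (hw0 y')
      have hv : var π T L ≤ D * ex π T L := by
        refine (var_linear_le T h0 h1 w).trans ?_
        rw [ex_linear, mul_sum]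
        refine sum_le_sum fun y' hy' => ?_
        have := mul_le_mul_of_nonneg_left (hwD y') (mul_nonneg (h0 y' hy') (hw0 y'))
        nlinarith [this]
      calc ex π T (fun U => ((D : ℝ) + 2 * L U) ^ 2)
          ≤ ex π T (fun U => 2 * (D : ℝ) ^ 2 * (fun _ => (1 : ℝ)) U + 8 * (fun U => L U ^ 2) U) :=
            ex_mono h0 h1 fun U _ => by nlinarith [sq_nonneg ((D : ℝ) - 2 * L U)]
        _ = 2 * (D : ℝ) ^ 2 + 8 * (var π T L + ex π T L ^ 2) := by
            rw [ex_add, ex_const_mul, ex_const_mul, ex_one, ex_sq, mul_one]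
        _ ≤ 10 * (D : ℝ) ^ 2 + 16 * M y ^ 2 := by
            nlinarith [sq_nonneg ((D : ℝ) - ex π T L), pow_le_pow_left₀ hm0 hm 2]
    refine (var_le T h0 h1 Q).trans ?_
    refine (sum_le_sum fun y hy => mul_le_mul_of_nonneg_left (step y hy) (h0 y hy)).trans ?_
    simp only [mul_add, sum_add_distrib]
    have e1 : ∑ y ∈ T, π y * (10 * (D : ℝ) ^ 2) ≤ 10 * c * (D : ℝ) ^ 3 * n := by
      rw [← sum_mul]
      calc (∑ y ∈ T, π y) * (10 * (D : ℝ) ^ 2) ≤ c * n * (10 * (D : ℝ) ^ 2) :=
            mul_le_mul_of_nonneg_right hupper (by positivity)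
        _ = 10 * c * n * (D : ℝ) ^ 2 := by ring
        _ ≤ 10 * c * n * (D : ℝ) ^ 3 := by
          refine mul_le_mul_of_nonneg_left (pow_le_pow_right₀ hD (by norm_num)) ?_
          have := C.c_pos; positivity
        _ = _ := by ring
    have e2 : ∑ y ∈ T, π y * (16 * M y ^ 2) ≤ 16 * c ^ 2 * μ * (D : ℝ) ^ 3 * n := by
      have hsupp : ∀ x, x ∉ Z → adj G π' x = 0 := fun x hx => sum_eq_zero fun z hz => by
        refine hπ'0 z fun hzT => hx (mem_biUnion.2 ⟨z, hzT, ?_⟩)
        rw [SimpleGraph.mem_neighborFinset] at hz ⊢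
        exact hz.symm
      have hμ := C.μ_one
      calc ∑ y ∈ T, π y * (16 * M y ^ 2) ≤ ∑ y ∈ T, 16 * M y ^ 2 :=
            sum_le_sum fun y hy => mul_le_of_le_one_left (by positivity) (h1 y hy)
        _ = 16 * ∑ y ∈ T, M y ^ 2 := (mul_sum _ _ _).symm
        _ ≤ 16 * (a ^ 2 * (a ^ 2 * ∑ x ∈ T, π' x ^ 2)) := by
            refine mul_le_mul_of_nonneg_left ((hn Z _ hsupp T).trans ?_) (by norm_num)
            exact mul_le_mul_of_nonneg_left (hn T π' hπ'0 Z) (sq_nonneg a)
        _ ≤ 16 * (((D : ℝ) ^ 2) * ((D : ℝ) ^ 2 * (p ^ 2 * (μ * D * n)))) := by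
            have e4 : ∑ x ∈ T, π' x ^ 2 = ∑ y ∈ T, π y ^ 2 :=
              sum_congr rfl fun y hy => by simp [hπ', hy]
            rw [e4]
            have ha2 : a ^ 2 ≤ (D : ℝ) ^ 2 := pow_le_pow_left₀ C.a_nonneg C.a_le 2
            gcongr
        _ = 16 * (p * D) ^ 2 * μ * (D : ℝ) ^ 3 * n := by ring
        _ = _ := by rw [C.pD]
    linarith
  -- Chebyshev twice
  have hX : ∀ U : Finset V, ((U.card : ℝ)) = ∑ y ∈ U, (fun _ => (1 : ℝ)) y := fun U => by simp
  have hbad1 := wt_tail_le h0 h1 (fun U => ∑ y ∈ U, (fun _ => (1 : ℝ)) y) (s := γ * n)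
    (mul_pos C.γ_pos hn0) (fun U => (U.card : ℝ) < g * n) (fun U _ hU => by
      rw [← hX U, abs_sub_comm, ex_linear]
      simp only [mul_one]
      refine le_trans ?_ (le_abs_self _)
      linarith)
  have hbad2 := wt_tail_le h0 h1 Q (s := c * D * n)
    (by have := C.c_pos; positivity) (fun U => g * n ≤ U.card ∧ μ * D * U.card < Q U)
    (fun U _ hU => by
      refine le_trans ?_ (le_abs_self _)
      have e1 : μ * D * (g * n) ≤ μ * D * U.card :=
        mul_le_mul_of_nonneg_left hU.1 (by have := C.μ_one; positivity)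
      have e2 := mul_le_mul_of_nonneg_right C.slack (by positivity : (0 : ℝ) ≤ (D : ℝ) * n)
      linarith [hU.2])
  have hv1 := var_linear_le T h0 h1 (fun _ : V => (1 : ℝ))
  simp only [one_pow, mul_one] at hv1
  calc ∑ U ∈ T.powerset.filter (fun U => ¬ GoodFront G D g μ A U), wt π T U
      ≤ ∑ U ∈ T.powerset.filter (fun U => (U.card : ℝ) < g * n) ∪
          T.powerset.filter (fun U => g * n ≤ U.card ∧ μ * D * U.card < Q U), wt π T U := by
        refine sum_le_sum_of_subset_of_nonneg (fun U hU => ?_) fun U hU _ => ?_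
        · rw [mem_filter] at hU
          rw [mem_union, mem_filter, mem_filter]
          by_cases hg : g * n ≤ (U.card : ℝ)
          · refine Or.inr ⟨hU.1, hg, lt_of_not_ge fun hle => hU.2 ⟨hg, ?_⟩⟩
            rw [coll_eq_sum (biUnion_subset_biUnion_of_subset_left _ (mem_powerset.1 hU.1))]
            exact hle
          · exact Or.inl ⟨hU.1, lt_of_not_ge hg⟩
        · simp only [mem_union, mem_filter, mem_powerset] at hU
          exact wt_nonneg h0 h1 (hU.elim (·.1) (·.1))
    _ ≤ var π T (fun U => ∑ y ∈ U, (fun _ => (1 : ℝ)) y) / (γ * n) ^ 2 +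
          var π T Q / (c * D * n) ^ 2 := by
        refine le_trans ?_ (add_le_add hbad1 hbad2)
        rw [← sum_union_inter]
        refine le_add_of_nonneg_right (sum_nonneg fun U hU => wt_nonneg h0 h1 ?_)
        exact mem_powerset.1 (mem_filter.1 (mem_inter.1 hU).1).1
    _ ≤ c * n / (γ * n) ^ 2 + (10 * c + 16 * c ^ 2 * μ) * (D : ℝ) ^ 3 * n / (c * D * n) ^ 2 := by
        gcongr
        exact hv1.trans hupper
    _ ≤ (c / γ ^ 2 + (10 * c + 16 * c ^ 2 * μ) / c ^ 2) * D / n := by
        have := C.c_pos; have := C.γ_pos; have hD0 : (0 : ℝ) < D := by linarith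
        have e1 : c * n / (γ * n) ^ 2 = c / γ ^ 2 / n := by field_simp
        have e2 : (10 * c + 16 * c ^ 2 * μ) * (D : ℝ) ^ 3 * n / (c * D * n) ^ 2 =
            (10 * c + 16 * c ^ 2 * μ) / c ^ 2 * D / n := by field_simp
        have e3 : c / γ ^ 2 / n ≤ c / γ ^ 2 * D / n :=
          div_le_div_of_nonneg_right (le_mul_of_one_le_right (by positivity) hD) hn0.le
        rw [e1, e2, add_mul (c / γ ^ 2), add_div (c / γ ^ 2 * (D : ℝ))]
        exact add_le_add e3 le_rfl

omit hreg hn in
theorem admissible_next {A S U : Finset V} (h : Admissible G D μ K A S)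
    (hU : GoodFront G D g μ A U) : Admissible G D μ K U (S ∪ U) := by
  refine ⟨subset_union_right, ?_, hU.2⟩
  have h1 : ((S ∪ U).card : ℝ) ≤ S.card + U.card := by exact_mod_cast card_union_le S U
  have h2 := mul_le_mul_of_nonneg_left hU.1 (le_trans zero_le_one C.K_one)
  have h3 := mul_le_mul_of_nonneg_right C.K_grow (Nat.cast_nonneg (α := ℝ) U.card)
  have h4 : 0 < g := by linarith [C.g_one]
  refine h1.trans (le_of_mul_le_mul_right ?_ h4)
  nlinarith [h.2.1]

end Vale.Agent.P165.LargeDegree
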