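import Vale.Agent.P165.LargeDegree.Bits
import Vale.Agent.P165.LargeDegree.Step

/-!
P165: exploration of the open clusters of a finite set, round by round.
-/

open MeasureTheory Finset

namespace Vale.Agent.P165.LargeDegree

variable {V : Type*} [DecidableEq V] (G : SimpleGraph V) [G.LocallyFinite]

/-- The edges from `y` into `A`. -/
def grp (A : Finset V) (y : V) : Finset (Sym2 V) :=
  (G.neighborFinset y ∩ A).image fun x => s(x, y)

/-- The vertices discovered in one round. -/
def found (b : Sym2 V → Bool) (A S : Finset V) : Finset V :=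
  (cand G A S).filter fun y => ∃ e ∈ grp G A y, b e = true

/-- The exploration grows well for `n` rounds. -/
def survive (D : ℕ) (g μ : ℝ) : ℕ → Finset V → Finset V → Set (Sym2 V → Bool)
  | 0, _, _ => Set.univ
  | n + 1, A, S => {b | GoodFront G D g μ A (found G b A S) ∧
      b ∈ survive D g μ n (found G b A S) (S ∪ found G b A S)}

/-- The edges looked at in `n` rounds. -/
def seen : ℕ → Finset V → Finset V → Finset (Sym2 V)
  | 0, _, _ => ∅
  | n + 1, A, S => (cand G A S).biUnion (grp G A) ∪
      (cand G A S).powerset.biUnion fun U => seen n U (S ∪ U)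

variable {G}

theorem mem_grp {A : Finset V} {y : V} {e : Sym2 V} :
    e ∈ grp G A y ↔ ∃ x, G.Adj y x ∧ x ∈ A ∧ s(x, y) = e := by
  simp [grp, and_assoc]

theorem seen_spec (n : ℕ) : ∀ A S : Finset V, A ⊆ S → ∀ e ∈ seen G n A S, ∀ v ∈ e,
    v ∈ A ∨ v ∉ S := by
  induction n with
  | zero => simp [seen]
  | succ n ih =>
    intro A S hAS e he v hv
    rw [seen, mem_union, mem_biUnion, mem_biUnion] at he
    rcases he with ⟨y, hy, hey⟩ | ⟨U, hU, heU⟩
    · obtain ⟨x, -, hx, rfl⟩ := mem_grp.1 hey
      rcases Sym2.mem_iff.1 hv with rfl | rfl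
      exacts [Or.inl hx, Or.inr (mem_sdiff.1 hy).2]
    · refine Or.inr fun hvS => ?_
      rcases ih U (S ∪ U) subset_union_right e heU v hv with h | h
      exacts [(mem_sdiff.1 (mem_powerset.1 hU h)).2 hvS, h (mem_union_left _ hvS)]

theorem seen_disjoint (n : ℕ) {A S U : Finset V} (hAS : A ⊆ S) (hU : U ⊆ cand G A S) :
    Disjoint ((cand G A S).biUnion (grp G A)) (seen G n U (S ∪ U)) := by
  rw [disjoint_left]
  intro e he he'
  obtain ⟨y, -, hey⟩ := mem_biUnion.1 he
  obtain ⟨x, -, hx, rfl⟩ := mem_grp.1 hey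
  rcases seen_spec n U (S ∪ U) subset_union_right _ he' x (Sym2.mem_mk_left x y) with h | h
  exacts [(mem_sdiff.1 (hU h)).2 (hAS hx), h (mem_union_left _ (hAS hx))]

theorem found_congr {b b' : Sym2 V → Bool} {A S : Finset V}
    (h : ∀ e ∈ (cand G A S).biUnion (grp G A), b e = b' e) : found G b A S = found G b' A S := by
  refine filter_congr fun y hy => ⟨?_, ?_⟩ <;> rintro ⟨e, he, hb⟩ <;> refine ⟨e, he, ?_⟩
  · rwa [← h e (mem_biUnion.2 ⟨y, hy, he⟩)]
  · rwa [h e (mem_biUnion.2 ⟨y, hy, he⟩)]

theorem survive_depends (D : ℕ) (g μ : ℝ) (n : ℕ) : ∀ A S : Finset V,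
    DependsOnBits (seen G n A S) (survive G D g μ n A S) := by
  induction n with
  | zero => exact fun _ _ _ _ _ h => h
  | succ n ih =>
    intro A S b b' h hb
    have e : found G b A S = found G b' A S :=
      found_congr fun e he => h e (mem_union_left _ he)
    refine ⟨e ▸ hb.1, ?_⟩
    rw [← e]
    refine ih _ _ b b' (fun x hx => h x (mem_union_right _ (mem_biUnion.2 ⟨_, ?_, hx⟩))) hb.2
    exact mem_powerset.2 (filter_subset _ _)

theorem found_depends (A S U : Finset V) :
    DependsOnBits ((cand G A S).biUnion (grp G A))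
      {b : Sym2 V → Bool | found G b A S = U} := fun b b' h hb => by
  rw [Set.mem_setOf_eq] at hb ⊢
  rw [← found_congr h, hb]

theorem card_grp (A : Finset V) (y : V) : (grp G A y).card = cnt G A y :=
  card_image_of_injective _ fun a a' h => Sym2.congr_left.1 h

theorem prob_found {p : ℝ} (hp : 0 ≤ p) (hp1 : p ≤ 1) {A S U : Finset V} (hAS : A ⊆ S)
    (hU : U ⊆ cand G A S) :
    (bitLaw V p).real {b | found G b A S = U} = wt (disc G p A) (cand G A S) U := by
  classical
  set T := cand G A S
  have key : ∀ T' ⊆ T, (bitLaw V p).real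
      {b | ∀ y ∈ T', ((∃ e ∈ grp G A y, b e = true) ↔ y ∈ U)} =
        ∏ y ∈ T', if y ∈ U then disc G p A y else 1 - disc G p A y := by
    intro T'
    induction T' using Finset.induction_on with
    | empty => simp
    | insert a T' ha ih =>
      intro hsub
      rw [prod_insert ha, ← ih ((subset_insert a T').trans hsub)]
      have hsplit : {b : Sym2 V → Bool |
          ∀ y ∈ insert a T', ((∃ e ∈ grp G A y, b e = true) ↔ y ∈ U)} =
            {b | (∃ e ∈ grp G A a, b e = true) ↔ a ∈ U} ∩
              {b | ∀ y ∈ T', ((∃ e ∈ grp G A y, b e = true) ↔ y ∈ U)} := by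
        ext b; simp [forall_mem_insert]
      rw [hsplit, indep_disjoint p (s := grp G A a) (t := T'.biUnion (grp G A))]
      · congr 1
        have hnone : (bitLaw V p).real {b | ∀ e ∈ grp G A a, b e = false} =
            (1 - p) ^ cnt G A a := by rw [prob_box, bern_false hp hp1, card_grp]
        have hm : MeasurableSet {b : Sym2 V → Bool | ∀ e ∈ grp G A a, b e = false} :=
          DependsOnBits.measurableSet (s := grp G A a) fun b b' h hb e he => by
            rw [← h e he]; exact hb e he
        split_ifs with haU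
        · have : {b : Sym2 V → Bool | (∃ e ∈ grp G A a, b e = true) ↔ a ∈ U} =
              {b | ∀ e ∈ grp G A a, b e = false}ᶜ := by
            ext b; simp [haU]
          rw [this, measureReal_compl hm, hnone]
          simp [disc]
        · have : {b : Sym2 V → Bool | (∃ e ∈ grp G A a, b e = true) ↔ a ∈ U} =
              {b | ∀ e ∈ grp G A a, b e = false} := by
            ext b; simp [haU]
          rw [this, hnone, disc]
          ring
      · rw [disjoint_left]
        intro e he he'
        obtain ⟨y, hy, hey⟩ := mem_biUnion.1 he'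
        obtain ⟨x, -, hx, rfl⟩ := mem_grp.1 he
        obtain ⟨x', -, hx', hxe⟩ := mem_grp.1 hey
        have haS : a ∉ S := (mem_sdiff.1 (hsub (mem_insert_self a T'))).2
        have hyS : y ∉ S := (mem_sdiff.1 (hsub (mem_insert_of_mem hy))).2
        rcases Sym2.eq_iff.1 hxe with ⟨_, h⟩ | ⟨h, _⟩
        · exact ha (h ▸ hy)
        · exact haS (hAS (h ▸ hx'))
      · intro b b' h hb
        rw [Set.mem_setOf_eq] at hb ⊢
        rw [← hb]
        exact ⟨fun ⟨e, he, hv⟩ => ⟨e, he, by rwa [h e he]⟩,
          fun ⟨e, he, hv⟩ => ⟨e, he, by rwa [← h e he]⟩⟩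
      · intro b b' h hb y hy
        rw [← hb y hy]
        exact ⟨fun ⟨e, he, hv⟩ => ⟨e, he, by rwa [h e (mem_biUnion.2 ⟨y, hy, he⟩)]⟩,
          fun ⟨e, he, hv⟩ => ⟨e, he, by rwa [← h e (mem_biUnion.2 ⟨y, hy, he⟩)]⟩⟩
  have hev : {b : Sym2 V → Bool | found G b A S = U} =
      {b | ∀ y ∈ T, ((∃ e ∈ grp G A y, b e = true) ↔ y ∈ U)} := by
    ext b
    simp only [Set.mem_setOf_eq, found]
    refine ⟨fun h y hy => ?_, fun h => ?_⟩
    · rw [← h, mem_filter]; exact ⟨fun he => ⟨hy, he⟩, fun he => he.2⟩
    · ext y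
      rw [mem_filter]
      exact ⟨fun hy => (h y hy.1).1 hy.2, fun hy => ⟨hU hy, (h y (hU hy)).2 hy⟩⟩
  rw [hev, key T subset_rfl, wt, prod_ite]
  congr 1
  · exact prod_congr (by ext y; simp only [mem_filter]; exact ⟨fun h => h.2, fun h => ⟨hU h, h⟩⟩)
      fun _ _ => rfl
  · exact prod_congr (by ext y; simp [mem_sdiff]) fun _ _ => rfl

variable {D : ℕ} (hreg : ∀ x, G.degree x = D) {a p c g θ μ K γ : ℝ} (hn : NormLe G a)
  (C : Consts D a p c g θ μ K γ)
include hreg hn C

theorem survive_prob (n : ℕ) : ∀ A S : Finset V, A.Nonempty → Admissible G D μ K A S →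
    1 - (c / γ ^ 2 + (10 * c + 16 * c ^ 2 * μ) / c ^ 2) * D * g / (g - 1) / A.card ≤
      (bitLaw V p).real (survive G D g μ n A S) := by
  have hg : (0 : ℝ) < g - 1 := sub_pos.2 C.g_one
  set R := c / γ ^ 2 + (10 * c + 16 * c ^ 2 * μ) / c ^ 2 with hR
  have hR0 : 0 ≤ R := by have := C.c_pos; have := C.γ_pos; have := C.μ_one; positivity
  induction n with
  | zero =>
    intro A S hA _
    have hA' : (0 : ℝ) < A.card := Nat.cast_pos.2 hA.card_pos
    have : 0 ≤ R * D * g / (g - 1) / A.card := by have := C.g_one; positivity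
    simp only [survive, probReal_univ]
    linarith
  | succ n ih =>
    intro A S hA hadm
    classical
    set T := cand G A S
    set f := R * D / A.card with hf
    set s := R * D * g / (g - 1) / (g * A.card) with hs
    have hA' : (0 : ℝ) < A.card := Nat.cast_pos.2 hA.card_pos
    have hg0 : (0 : ℝ) < g := by linarith [C.g_one]
    have hs0 : 0 ≤ s := by rw [hs]; positivity
    set good := T.powerset.filter fun U => GoodFront G D g μ A U
    have hsurv : (bitLaw V p).real (survive G D g μ (n + 1) A S) =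
        ∑ U ∈ good, wt (disc G p A) T U * (bitLaw V p).real (survive G D g μ n U (S ∪ U)) := by
      have hset : survive G D g μ (n + 1) A S =
          ⋃ U ∈ good, ({b | found G b A S = U} ∩ survive G D g μ n U (S ∪ U)) := by
        ext b
        simp only [survive, Set.mem_setOf_eq, Set.mem_iUnion, Set.mem_inter_iff, good,
          mem_filter, mem_powerset, exists_prop]
        constructor
        · exact fun h => ⟨_, ⟨filter_subset _ _, h.1⟩, rfl, h.2⟩
        · rintro ⟨U, ⟨-, h1⟩, rfl, h2⟩; exact ⟨h1, h2⟩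
      rw [hset, measureReal_biUnion_finset]
      · refine sum_congr rfl fun U hU => ?_
        have hUT := mem_powerset.1 (mem_filter.1 hU).1
        rw [indep_disjoint p (seen_disjoint n hadm.1 hUT) (found_depends A S U)
          (survive_depends D g μ n U (S ∪ U)), prob_found C.p_nonneg C.p_le hadm.1 hUT]
      · exact fun U _ U' _ hne => Set.disjoint_left.2 fun b h h' => hne (h.1.symm.trans h'.1)
      · exact fun U _ => (found_depends A S U).measurableSet.inter
          (survive_depends D g μ n U (S ∪ U)).measurableSet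
    have h0 : ∀ i ∈ T, 0 ≤ disc G p A i := fun i _ =>
      sub_nonneg.2 (pow_le_one₀ (by linarith [C.p_le]) (by linarith [C.p_nonneg]))
    have h1 : ∀ i ∈ T, disc G p A i ≤ 1 := fun i _ => by
      have : (0 : ℝ) ≤ (1 - p) ^ cnt G A i := pow_nonneg (by linarith [C.p_le]) _
      simp only [disc]; linarith
    have hbad := step_bound hreg hn C hA hadm
    have htot : ∑ U ∈ good, wt (disc G p A) T U +
        ∑ U ∈ T.powerset.filter (fun U => ¬ GoodFront G D g μ A U), wt (disc G p A) T U = 1 := by
      rw [sum_filter_add_sum_filter_not]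
      simpa [ex] using ex_one (π := disc G p A) T
    have hwt : ∀ U ∈ T.powerset, 0 ≤ wt (disc G p A) T U := fun U hU =>
      wt_nonneg h0 h1 (mem_powerset.1 hU)
    have hG1 : ∑ U ∈ good, wt (disc G p A) T U ≤ 1 := by
      have := sum_nonneg (s := T.powerset.filter fun U => ¬ GoodFront G D g μ A U)
        fun U hU => hwt U (mem_filter.1 hU).1
      linarith
    have hlow : (∑ U ∈ good, wt (disc G p A) T U) * (1 - s) ≤
        (bitLaw V p).real (survive G D g μ (n + 1) A S) := by
      rw [hsurv, sum_mul]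
      refine sum_le_sum fun U hU => ?_
      obtain ⟨hUT, hUg⟩ := mem_filter.1 hU
      have hUc : g * A.card ≤ (U.card : ℝ) := hUg.1
      have hUne : U.Nonempty := card_pos.1 (Nat.cast_pos.1 (lt_of_lt_of_le (by positivity) hUc))
      refine mul_le_mul_of_nonneg_left (le_trans ?_ (ih U _ hUne (admissible_next C hadm hUg)))
        (hwt U hUT)
      have : R * D * g / (g - 1) / U.card ≤ s :=
        div_le_div_of_nonneg_left (by positivity) (by positivity) hUc
      linarith
    have hfs : f + s = R * D * g / (g - 1) / A.card := by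
      rw [hf, hs]; field_simp; ring
    have hb' : ∑ U ∈ T.powerset.filter (fun U => ¬ GoodFront G D g μ A U),
        wt (disc G p A) T U ≤ f := hbad
    have h3 := mul_nonneg (sub_nonneg.2 hG1) hs0
    nlinarith [hlow]

omit hreg hn in
theorem survive_reach (n : ℕ) : ∀ A S : Finset V, ∀ b ∈ survive G D g μ n A S,
    ∃ R : Finset V, g ^ n * A.card ≤ (R.card : ℝ) ∧
      ∀ y ∈ R, ∃ x ∈ A, (bitGraph G b).Reachable x y := by
  induction n with
  | zero => exact fun A S b _ => ⟨A, by simp, fun y hy => ⟨y, hy, SimpleGraph.Reachable.refl y⟩⟩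
  | succ n ih =>
    intro A S b hb
    obtain ⟨R, hR, hr⟩ := ih _ _ b hb.2
    refine ⟨R, le_trans ?_ hR, fun y hy => ?_⟩
    · rw [pow_succ, mul_assoc]
      exact mul_le_mul_of_nonneg_left hb.1.1 (pow_nonneg (by linarith [C.g_one]) n)
    · obtain ⟨z, hz, hzy⟩ := hr y hy
      obtain ⟨e, he, hbe⟩ := (mem_filter.1 hz).2
      obtain ⟨x, hadj, hx, rfl⟩ := mem_grp.1 he
      exact ⟨x, hx, (SimpleGraph.Adj.reachable
        (show (bitGraph G b).Adj x z from ⟨hadj.symm, hbe⟩)).trans hzy⟩

end Vale.Agent.P165.LargeDegree
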