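import Vale.Agent.P165.LargeDegree.Critical

/-!
P165: for every expansion ratio there is a degree beyond which percolation has a nonuniqueness
phase.
-/

open Finset

namespace Vale.Agent.P165.LargeDegree

universe u

theorem exists_degree {κ : ℝ} (hκ : 0 < κ) :
    ∃ D₀ : ℕ, ∀ (V : Type u) (G : SimpleGraph V) [G.LocallyFinite], G.Connected → Infinite V →
      IsQuasiTransitive G → ∀ D : ℕ, D₀ ≤ D → (∀ x, G.degree x = D) →
        HasEdgeExpansion G (κ * D) → pc G < pu G := by
  set k := min κ (1 / 2) with hk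
  have hk0 : 0 < k := lt_min hκ (by norm_num)
  have hk1 : k ≤ 1 / 2 := min_le_right _ _
  set ρ := Real.sqrt (1 - k ^ 2) with hρ
  have hρsq : ρ ^ 2 = 1 - k ^ 2 := Real.sq_sqrt (by nlinarith)
  have hρ0 : 0 < ρ := Real.sqrt_pos.2 (by nlinarith)
  have hρ1 : ρ < 1 := by nlinarith
  set c := (1 + 1 / ρ) / 2 with hc
  have hρi : 1 < 1 / ρ := by rw [lt_div_iff₀ hρ0]; linarith
  have hc1 : 1 < c := by rw [hc]; linarith
  have hcρ : c * ρ = (ρ + 1) / 2 := by rw [hc]; field_simp
  set θ := (c * ρ) ^ 2 with hθ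
  have hθ1 : θ < 1 := by rw [hθ, hcρ]; nlinarith
  set g := (1 + c) / 2 with hg
  have hg1 : 1 < g := by rw [hg]; linarith
  set γ := (c - g) / 3 with hγ
  have hγ0 : 0 < γ := by rw [hγ, hg]; linarith
  set μ := max 1 (2 * c / (g - θ)) with hμ
  set K := g / (g - 1) with hK
  obtain ⟨D₀, hD₀⟩ := exists_nat_gt
    (max (max (c ^ 2 * μ * K / γ ^ 2) (c ^ 2 * μ / γ)) (max c (1 / ρ)))
  refine ⟨D₀, fun V G _ hconn hV hq D hD hreg hexp => ?_⟩
  classical
  have := countable_of_connected G hconn
  have hDr : max (max (c ^ 2 * μ * K / γ ^ 2) (c ^ 2 * μ / γ)) (max c (1 / ρ)) < (D : ℝ) :=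
    lt_of_lt_of_le hD₀ (Nat.cast_le.2 hD)
  have hDc : c < (D : ℝ) := ((le_max_left _ _).trans (le_max_right _ _)).trans_lt hDr
  have hD0 : (0 : ℝ) < D := by linarith
  have hexp' : HasEdgeExpansion G (k * D) := fun A => le_trans
    (mul_le_mul_of_nonneg_right (mul_le_mul_of_nonneg_right (min_le_left κ _) hD0.le)
      (Nat.cast_nonneg _)) (hexp A)
  have hn : NormLe G (ρ * D) := normLe_of_expansion hreg hexp' (by positivity) (by positivity)
    (le_of_eq (by rw [mul_pow ρ, hρsq]; ring))
  have hgθ : 0 < g - θ := by linarith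
  have C : Consts D (ρ * D) (c / D) c g θ μ K γ :=
    { p_nonneg := div_nonneg (by linarith) hD0.le
      p_le := (div_le_one hD0).2 hDc.le
      pD := div_mul_cancel₀ c hD0.ne'
      D_pos := by linarith
      a_nonneg := by positivity
      a_le := mul_le_of_le_one_left hD0.le hρ1.le
      ap := le_of_eq (by rw [hθ]; field_simp)
      g_one := hg1
      c_pos := by linarith
      μ_one := le_max_left _ _
      slack := by
        have := le_max_right 1 (2 * c / (g - θ))
        rw [div_le_iff₀ hgθ] at this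
        linarith
      K_one := by rw [hK, le_div_iff₀ (by linarith)]; linarith
      K_grow := by rw [hK, div_mul_cancel₀ g (by linarith : g - 1 ≠ 0)]
      γ_pos := hγ0
      gap := by rw [hγ]; linarith
      big1 := by
        have := (((le_max_left _ _).trans (le_max_left _ _)).trans_lt hDr).le
        rw [div_le_iff₀ (pow_pos hγ0 2)] at this
        linarith
      big2 := by
        have := (((le_max_right _ _).trans (le_max_left _ _)).trans_lt hDr).le
        rw [div_le_iff₀ hγ0] at this
        linarith }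
  calc pc G ≤ c / D := pc_le G hreg hn C
    _ < 1 / (ρ * D) := by
        rw [div_lt_div_iff₀ hD0 (by positivity), ← mul_assoc, one_mul, hcρ]
        exact mul_lt_of_lt_one_left hD0 (by linarith)
    _ ≤ pu G := le_pu G hconn hq (by positivity) hn

end Vale.Agent.P165.LargeDegree
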