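import Mathlib

/-!
P165: finite product of biased coins as weights on a powerset; the bounded-difference variance
inequality and Chebyshev.
-/

open Finset

namespace Vale.Agent.P165.LargeDegree

variable {ι : Type*} [DecidableEq ι] (π : ι → ℝ)

/-- Weight of the outcome `U` in `T`. -/
def wt (T U : Finset ι) : ℝ := (∏ i ∈ U, π i) * ∏ i ∈ T \ U, (1 - π i)

/-- Expectation over the outcomes. -/
def ex (T : Finset ι) (F : Finset ι → ℝ) : ℝ := ∑ U ∈ T.powerset, wt π T U * F U

variable {π}

theorem ex_add (T : Finset ι) (F H : Finset ι → ℝ) :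
    ex π T (fun U => F U + H U) = ex π T F + ex π T H := by
  simp [ex, mul_add, sum_add_distrib]

theorem ex_const_mul (T : Finset ι) (F : Finset ι → ℝ) (r : ℝ) :
    ex π T (fun U => r * F U) = r * ex π T F := by
  rw [ex, ex, mul_sum]
  exact sum_congr rfl fun U _ => by ring

theorem ex_empty (F : Finset ι → ℝ) : ex π ∅ F = F ∅ := by simp [ex, wt]

theorem ex_insert {a : ι} {T : Finset ι} (ha : a ∉ T) (F : Finset ι → ℝ) :
    ex π (insert a T) F = (1 - π a) * ex π T F + π a * ex π T (fun U => F (insert a U)) := by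
  rw [ex, sum_powerset_insert ha, ex, ex, mul_sum, mul_sum]
  congr 1 <;> refine sum_congr rfl fun U hU => ?_
  · have haU : a ∉ U := fun h => ha (mem_powerset.1 hU h)
    rw [wt, wt, insert_sdiff_of_notMem _ haU, prod_insert (by simp [ha])]
    ring
  · have haU : a ∉ U := fun h => ha (mem_powerset.1 hU h)
    rw [wt, wt, insert_sdiff_insert, prod_insert haU, sdiff_insert_of_notMem ha]
    ring

theorem ex_one (T : Finset ι) : ex π T (fun _ => 1) = 1 := by
  induction T using Finset.induction_on with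
  | empty => simp [ex_empty]
  | insert a T ha ih => rw [ex_insert ha]; simp only [ih]; ring

theorem wt_nonneg {T : Finset ι} (h0 : ∀ i ∈ T, 0 ≤ π i) (h1 : ∀ i ∈ T, π i ≤ 1) {U : Finset ι}
    (hU : U ⊆ T) : 0 ≤ wt π T U :=
  mul_nonneg (prod_nonneg fun i hi => h0 i (hU hi))
    (prod_nonneg fun i hi => sub_nonneg.2 (h1 i (mem_sdiff.1 hi).1))

theorem ex_mono {T : Finset ι} (h0 : ∀ i ∈ T, 0 ≤ π i) (h1 : ∀ i ∈ T, π i ≤ 1)
    {F H : Finset ι → ℝ} (h : ∀ U ⊆ T, F U ≤ H U) : ex π T F ≤ ex π T H :=
  sum_le_sum fun U hU => mul_le_mul_of_nonneg_left (h U (mem_powerset.1 hU))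
    (wt_nonneg h0 h1 (mem_powerset.1 hU))

/-- The variance of `F`. -/
def var (π : ι → ℝ) (T : Finset ι) (F : Finset ι → ℝ) : ℝ :=
  ex π T (fun U => (F U - ex π T F) ^ 2)

theorem ex_sq_shift (T : Finset ι) (F : Finset ι → ℝ) (m : ℝ) :
    ex π T (fun U => (F U - m) ^ 2) = var π T F + (ex π T F - m) ^ 2 := by
  have key : ∀ r : ℝ, ex π T (fun U => (F U - r) ^ 2) =
      ex π T (fun U => F U ^ 2) - 2 * r * ex π T F + r ^ 2 := fun r => by
    have : (fun U => (F U - r) ^ 2) =
        fun U => (F U ^ 2 + (-2 * r) * F U) + r ^ 2 * (fun _ => (1 : ℝ)) U := by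
      funext U; ring
    rw [this, ex_add, ex_add, ex_const_mul, ex_const_mul, ex_one]
    ring
  rw [var, key, key]
  ring

theorem ex_sq (T : Finset ι) (F : Finset ι → ℝ) :
    ex π T (fun U => F U ^ 2) = var π T F + ex π T F ^ 2 := by
  simpa using ex_sq_shift T F 0

theorem var_nonneg {T : Finset ι} (h0 : ∀ i ∈ T, 0 ≤ π i) (h1 : ∀ i ∈ T, π i ≤ 1)
    (F : Finset ι → ℝ) : 0 ≤ var π T F := by
  have := ex_mono h0 h1 (F := fun _ => 0) (H := fun U => (F U - ex π T F) ^ 2)
    fun U _ => sq_nonneg _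
  simpa [ex, var] using this

/-- Variance is at most the sum of expected squared differences. -/
theorem var_le (T : Finset ι) (h0 : ∀ i ∈ T, 0 ≤ π i) (h1 : ∀ i ∈ T, π i ≤ 1)
    (F : Finset ι → ℝ) :
    var π T F ≤ ∑ y ∈ T, π y * ex π T (fun U => (F (insert y U) - F (U.erase y)) ^ 2) := by
  induction T using Finset.induction_on generalizing F with
  | empty => simp [var, ex_empty]
  | insert a T ha ih =>
    have h0' : ∀ i ∈ T, 0 ≤ π i := fun i hi => h0 i (mem_insert_of_mem hi)
    have h1' : ∀ i ∈ T, π i ≤ 1 := fun i hi => h1 i (mem_insert_of_mem hi)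
    have i1 := ih h0' h1' F
    have i2 := ih h0' h1' (fun U => F (insert a U))
    set m0 := ex π T F with hm0
    set m1 := ex π T (fun U => F (insert a U)) with hm1
    have hvar : var π (insert a T) F = (1 - π a) * var π T F +
        π a * var π T (fun U => F (insert a U)) + π a * (1 - π a) * (m1 - m0) ^ 2 := by
      rw [var, ex_insert ha, ex_sq_shift, ex_sq_shift, ex_insert ha, ← hm0, ← hm1]
      ring
    have hj : (m1 - m0) ^ 2 ≤ ex π T (fun U => (F (insert a U) - F U) ^ 2) := by
      rw [ex_sq T (fun U => F (insert a U) - F U)]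
      have e : ex π T (fun U => F (insert a U) - F U) = m1 - m0 := by
        rw [hm0, hm1]; simp [ex, mul_sub, sum_sub_distrib]
      rw [e]
      linarith [var_nonneg h0' h1' (fun U => F (insert a U) - F U)]
    rw [sum_insert ha, hvar]
    have ha' : ex π (insert a T) (fun U => (F (insert a U) - F (U.erase a)) ^ 2) =
        ex π T (fun U => (F (insert a U) - F U) ^ 2) := by
      rw [ex_insert ha]
      have e1 : ex π T (fun U => (F (insert a U) - F (U.erase a)) ^ 2) =
          ex π T (fun U => (F (insert a U) - F U) ^ 2) :=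
        sum_congr rfl fun U hU => by dsimp only; rw [erase_eq_of_notMem fun h => ha (mem_powerset.1 hU h)]
      have e2 : ex π T (fun U => (F (insert a (insert a U)) - F ((insert a U).erase a)) ^ 2) =
          ex π T (fun U => (F (insert a U) - F U) ^ 2) :=
        sum_congr rfl fun U hU => by
          dsimp only
          rw [erase_insert fun h => ha (mem_powerset.1 hU h), insert_idem]
      rw [e1, e2]; ring
    have hrest : ∀ y ∈ T, ex π (insert a T) (fun U => (F (insert y U) - F (U.erase y)) ^ 2) =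
        (1 - π a) * ex π T (fun U => (F (insert y U) - F (U.erase y)) ^ 2) +
          π a * ex π T (fun U => (F (insert a (insert y U)) - F (insert a (U.erase y))) ^ 2) := by
      intro y hy
      have hya : y ≠ a := fun h => ha (h ▸ hy)
      rw [ex_insert ha]
      congr 2
      refine sum_congr rfl fun U _ => ?_
      dsimp only
      rw [Finset.insert_comm, erase_insert_of_ne hya.symm]
    rw [ha', sum_congr rfl fun y hy => congrArg (π y * ·) (hrest y hy)]
    have hp : 0 ≤ π a := h0 a (mem_insert_self a T)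
    have hq : 0 ≤ 1 - π a := sub_nonneg.2 (h1 a (mem_insert_self a T))
    have e3 : ∀ y, π y * ((1 - π a) * ex π T (fun U => (F (insert y U) - F (U.erase y)) ^ 2) +
        π a * ex π T (fun U => (F (insert a (insert y U)) - F (insert a (U.erase y))) ^ 2)) =
        (1 - π a) * (π y * ex π T (fun U => (F (insert y U) - F (U.erase y)) ^ 2)) + π a *
        (π y * ex π T (fun U => (F (insert a (insert y U)) - F (insert a (U.erase y))) ^ 2)) :=
      fun y => by ring
    simp only [e3, sum_add_distrib, ← mul_sum]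
    have j1 := mul_le_mul_of_nonneg_left i1 hq
    have j2 := mul_le_mul_of_nonneg_left i2 hp
    have j3 : π a * (1 - π a) * (m1 - m0) ^ 2 ≤
        π a * ex π T (fun U => (F (insert a U) - F U) ^ 2) := by
      have : π a * (1 - π a) * (m1 - m0) ^ 2 ≤ π a * (m1 - m0) ^ 2 := by
        nlinarith [mul_nonneg (mul_nonneg hp hp) (sq_nonneg (m1 - m0))]
      exact this.trans (mul_le_mul_of_nonneg_left hj hp)
    linarith

theorem ex_linear (T : Finset ι) (w : ι → ℝ) :
    ex π T (fun U => ∑ y ∈ U, w y) = ∑ y ∈ T, π y * w y := by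
  induction T using Finset.induction_on with
  | empty => simp [ex_empty]
  | insert a T ha ih =>
    have : ex π T (fun U => ∑ y ∈ insert a U, w y) = w a + ex π T (fun U => ∑ y ∈ U, w y) := by
      have e : ex π T (fun U => ∑ y ∈ insert a U, w y) =
          ex π T (fun U => w a * (fun _ => (1 : ℝ)) U + ∑ y ∈ U, w y) :=
        sum_congr rfl fun U hU => by
          dsimp only
          rw [sum_insert fun h => ha (mem_powerset.1 hU h), mul_one]
      rw [e, ex_add, ex_const_mul, ex_one, mul_one]
    rw [ex_insert ha, this, ih, sum_insert ha]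
    ring

theorem var_linear_le (T : Finset ι) (h0 : ∀ i ∈ T, 0 ≤ π i) (h1 : ∀ i ∈ T, π i ≤ 1)
    (w : ι → ℝ) : var π T (fun U => ∑ y ∈ U, w y) ≤ ∑ y ∈ T, π y * w y ^ 2 := by
  refine (var_le T h0 h1 _).trans (sum_le_sum fun y hy => ?_)
  refine mul_le_mul_of_nonneg_left (le_of_eq ?_) (h0 y hy)
  have : (fun U : Finset ι => (∑ i ∈ insert y U, w i - ∑ i ∈ U.erase y, w i) ^ 2) =
      fun U => w y ^ 2 * (fun _ => (1 : ℝ)) U := by
    funext U
    have e : insert y U = insert y (U.erase y) := by ext i; by_cases hi : i = y <;> simp [hi]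
    rw [e, sum_insert (notMem_erase y U)]
    ring
  rw [this, ex_const_mul, ex_one, mul_one]

/-- Chebyshev. -/
theorem wt_tail_le {T : Finset ι} (h0 : ∀ i ∈ T, 0 ≤ π i) (h1 : ∀ i ∈ T, π i ≤ 1)
    (F : Finset ι → ℝ) {s : ℝ} (hs : 0 < s) (bad : Finset ι → Prop) [DecidablePred bad]
    (hbad : ∀ U ⊆ T, bad U → s ≤ |F U - ex π T F|) :
    ∑ U ∈ T.powerset.filter bad, wt π T U ≤ var π T F / s ^ 2 := by
  rw [le_div_iff₀ (pow_pos hs 2), sum_mul]
  calc _ ≤ ∑ U ∈ T.powerset.filter bad, wt π T U * (F U - ex π T F) ^ 2 :=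
        sum_le_sum fun U hU => by
          rw [mem_filter, mem_powerset] at hU
          refine mul_le_mul_of_nonneg_left ?_ (wt_nonneg h0 h1 hU.1)
          have := pow_le_pow_left₀ hs.le (hbad U hU.1 hU.2) 2
          rwa [sq_abs] at this
    _ ≤ var π T F :=
        sum_le_sum_of_subset_of_nonneg (filter_subset _ _) fun U hU _ =>
          mul_nonneg (wt_nonneg h0 h1 (mem_powerset.1 hU)) (sq_nonneg _)

end Vale.Agent.P165.LargeDegree
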